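import Crest.Agent.N76.II.L0.Net

/-! # Row 76, leaf L0: summation of the pieces (helper66). -/

set_option autoImplicit false

namespace Crest.Agent.N76.II.L0

theorem min_le_geom {D y θ : ℝ} (hD : 0 ≤ D) (hy : 0 ≤ y) (h0 : 0 ≤ θ) (h1 : θ ≤ 1) :
    min D y ≤ D ^ (1 - θ) * y ^ θ := by
  have hm : 0 ≤ min D y := le_min hD hy
  calc min D y = min D y ^ ((1 - θ) + θ) := by simp
    _ = min D y ^ (1 - θ) * min D y ^ θ := Real.rpow_add_of_nonneg hm (by linarith) h0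
    _ ≤ _ := mul_le_mul (Real.rpow_le_rpow hm (min_le_left _ _) (by linarith))
        (Real.rpow_le_rpow hm (min_le_right _ _) h0) (by positivity) (by positivity)

theorem min_rpow_le {φ v θ : ℝ} (hφ : 0 ≤ φ) (hv : 0 ≤ v) (h0 : 0 ≤ θ) :
    min φ v ^ θ ≤ φ ^ (θ / 2) * v ^ (θ / 2) := by
  have hm : 0 ≤ min φ v := le_min hφ hv
  calc min φ v ^ θ = min φ v ^ (θ / 2 + θ / 2) := by rw [add_halves]
    _ = min φ v ^ (θ / 2) * min φ v ^ (θ / 2) :=
        Real.rpow_add_of_nonneg hm (by linarith) (by linarith)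
    _ ≤ _ := mul_le_mul (Real.rpow_le_rpow hm (min_le_left _ _) (by linarith))
        (Real.rpow_le_rpow hm (min_le_right _ _) (by linarith)) (by positivity) (by positivity)

theorem rpow_le_add_one {x θ : ℝ} (hx : 0 ≤ x) (h0 : 0 ≤ θ) (h1 : θ ≤ 1) : x ^ θ ≤ x + 1 :=
  calc x ^ θ ≤ (x + 1) ^ θ := Real.rpow_le_rpow hx (by linarith) h0
    _ ≤ (x + 1) ^ (1 : ℝ) := Real.rpow_le_rpow_of_exponent_le (by linarith) h1
    _ = x + 1 := Real.rpow_one _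

theorem kap_le {d : ℕ} (hd : 1 ≤ d) {θ CP ω N B D φ μ l : ℝ} (h0 : 0 < θ) (h1 : θ ≤ 1)
    (hCP : 0 ≤ CP) (hω : 0 ≤ ω) (hN : 0 ≤ N) (hB : 0 < B) (hD : 0 ≤ D) (hφ : 0 ≤ φ) (hμ : 1 ≤ μ)
    (hl : 0 ≤ l) :
    μ * min D (2 * N * (Real.exp (9 - l) * (2 * (l + 1)) ^ d * ω *
        min φ (CP * (μ ^ (-(d : ℝ) / (4 * (θ / 16))) + 1 / (B ^ 8 * μ))))) ≤
      (2 * Real.exp 9 * 2 ^ d * ω + 1) * (CP + 1) * ((l + 1) ^ d * Real.exp (-θ * l)) *
        (D ^ (1 - θ) * N ^ θ * φ ^ (θ / 2) / μ + N / B ^ 8) := by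
  have hμ0 : 0 < μ := by linarith
  set G₀ := 2 * Real.exp 9 * 2 ^ d * ω with hG₀
  have hG0 : 0 ≤ G₀ := by positivity
  set y := (l + 1) ^ d with hy
  have hy1 : 1 ≤ y := one_le_pow₀ (by linarith)
  set v₁ := CP * μ ^ (-(d : ℝ) / (4 * (θ / 16))) with hv₁
  set v₂ := CP * (1 / (B ^ 8 * μ)) with hv₂
  have hv1 : 0 ≤ v₁ := by positivity
  have hv2 : 0 ≤ v₂ := by positivity
  set x := N * (G₀ * y) * Real.exp (-l) with hx
  have hx0 : 0 ≤ x := by positivity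
  have e : 2 * N * (Real.exp (9 - l) * (2 * (l + 1)) ^ d * ω *
      min φ (CP * (μ ^ (-(d : ℝ) / (4 * (θ / 16))) + 1 / (B ^ 8 * μ)))) =
      x * min φ (v₁ + v₂) := by
    rw [hx, hG₀, hy, hv₁, hv₂, mul_add CP, mul_pow, sub_eq_add_neg, Real.exp_add]
    ring
  rw [e]
  have h2 : min φ (v₁ + v₂) ≤ min φ v₁ + v₂ := by
    rw [← min_add_add_right]
    exact min_le_min (by linarith) le_rfl
  have h3 : min D (x * min φ (v₁ + v₂)) ≤ min D (x * min φ v₁) + x * v₂ := by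
    rw [← min_add_add_right]
    refine min_le_min (by nlinarith [mul_nonneg hx0 hv2]) ?_
    exact (mul_le_mul_of_nonneg_left h2 hx0).trans (le_of_eq (mul_add _ _ _))
  have hGy : (G₀ * y) ^ θ ≤ (G₀ + 1) * y := by
    refine (rpow_le_add_one (by positivity) h0.le h1).trans ?_
    linarith
  have hxθ : x ^ θ ≤ N ^ θ * ((G₀ + 1) * y) * Real.exp (-θ * l) := by
    rw [hx, Real.mul_rpow (by positivity) (by positivity), Real.mul_rpow hN (by positivity),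
      ← Real.exp_mul, show -l * θ = -θ * l by ring]
    gcongr
  have hvθ : v₁ ^ (θ / 2) ≤ (CP + 1) * (1 / μ ^ 2) := by
    rw [hv₁, Real.mul_rpow hCP (by positivity), ← Real.rpow_mul hμ0.le]
    refine mul_le_mul (rpow_le_add_one hCP (by linarith) (by linarith)) ?_ (by positivity)
      (by positivity)
    have e2 : -(d : ℝ) / (4 * (θ / 16)) * (θ / 2) = -(2 * d) := by field_simp; ring
    have hd' : (1 : ℝ) ≤ d := by exact_mod_cast hd
    rw [e2, one_div, ← Real.rpow_natCast, ← Real.rpow_neg hμ0.le]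
    exact Real.rpow_le_rpow_of_exponent_le hμ (by push_cast; linarith)
  have h4 : min D (x * min φ v₁) ≤ D ^ (1 - θ) * ((N ^ θ * ((G₀ + 1) * y) * Real.exp (-θ * l)) *
      (φ ^ (θ / 2) * ((CP + 1) * (1 / μ ^ 2)))) := by
    have hm : 0 ≤ min φ v₁ := le_min hφ hv1
    refine (min_le_geom hD (mul_nonneg hx0 hm) h0.le h1).trans ?_
    rw [Real.mul_rpow hx0 hm]
    refine mul_le_mul_of_nonneg_left (mul_le_mul hxθ ((min_rpow_le hφ hv1 h0.le).trans ?_)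
      (by positivity) (by positivity)) (by positivity)
    gcongr
  have h5 : x * v₂ ≤ N * ((G₀ + 1) * y) * Real.exp (-θ * l) * ((CP + 1) * (1 / (B ^ 8 * μ))) := by
    rw [hx, hv₂]
    have : Real.exp (-l) ≤ Real.exp (-θ * l) := Real.exp_le_exp.2 (by nlinarith)
    gcongr <;> linarith
  refine (mul_le_mul_of_nonneg_left (h3.trans (add_le_add h4 h5)) hμ0.le).trans (le_of_eq ?_)
  field_simp

theorem sum_kap_le {d : ℕ} (hd : 1 ≤ d) {θ CP ω : ℝ} (h0 : 0 < θ) (h1 : θ ≤ 1) (hCP : 0 ≤ CP)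
    (hω : 0 ≤ ω) : ∃ C : ℝ, 0 ≤ C ∧ ∀ (M L : ℕ) (N B D φ : ℝ), 0 < N → 1 ≤ B → N ≤ B →
      (M : ℝ) + 1 ≤ 3 * B → 0 ≤ D → 0 ≤ φ →
      ∑ i ∈ Finset.range (M + 1) ×ˢ Finset.range (L + 1),
        ((i.1 : ℝ) + 1) ^ 2 * ((i.2 : ℝ) + 1) ^ (d + 2) * 2 ^ i.1 *
        min D (2 * N * (Real.exp (9 - i.2) * (2 * ((i.2 : ℝ) + 1)) ^ d * ω *
          min φ (CP * (((2 : ℝ) ^ i.1) ^ (-(d : ℝ) / (4 * (θ / 16))) + 1 / (B ^ 8 * 2 ^ i.1))))) ≤
      C * (D ^ (1 - θ) * N ^ θ * φ ^ (θ / 2) + N ^ (2 / ((d : ℝ) + 2)) / B ^ 3) := by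
  obtain ⟨C₁, hC₁, h₁⟩ := sum_pow_exp_le (2 * d + 2) h0
  obtain ⟨C₂, hC₂, h₂⟩ := sum_pow_exp_le 2 (Real.log_pos (by norm_num : (1 : ℝ) < 2))
  set G := (2 * Real.exp 9 * 2 ^ d * ω + 1) * (CP + 1) with hG
  have hG0 : 0 ≤ G := by positivity
  refine ⟨G * ((C₂ + 27) * C₁), by positivity, fun M L N B D φ hN hB hNB hM hD hφ => ?_⟩
  have hB0 : 0 < B := by linarith
  set T := D ^ (1 - θ) * N ^ θ * φ ^ (θ / 2) with hT
  have hT0 : 0 ≤ T := by positivity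
  have hq : N / B ^ 5 ≤ N ^ (2 / ((d : ℝ) + 2)) / B ^ 3 := by
    have hq0 : 0 ≤ 2 / ((d : ℝ) + 2) := by positivity
    have hq1 : 2 / ((d : ℝ) + 2) ≤ 1 := by
      rw [div_le_one (by positivity)]
      have : (0 : ℝ) ≤ d := Nat.cast_nonneg d
      linarith
    have h3 : N ≤ N ^ (2 / ((d : ℝ) + 2)) * B := by
      calc N = N ^ (2 / ((d : ℝ) + 2)) * N ^ (1 - 2 / ((d : ℝ) + 2)) := by
            rw [← Real.rpow_add hN]; simp
        _ ≤ N ^ (2 / ((d : ℝ) + 2)) * B ^ (1 : ℝ) := by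
            refine mul_le_mul_of_nonneg_left ?_ (by positivity)
            exact (Real.rpow_le_rpow hN.le hNB (by linarith)).trans
              (Real.rpow_le_rpow_of_exponent_le hB (by linarith))
        _ = _ := by rw [Real.rpow_one]
    rw [div_le_div_iff₀ (by positivity) (by positivity)]
    calc N * B ^ 3 ≤ N ^ (2 / ((d : ℝ) + 2)) * B * B ^ 3 := by gcongr
      _ = N ^ (2 / ((d : ℝ) + 2)) * B ^ 4 := by ring
      _ ≤ _ := by gcongr; norm_num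
  have hm : ∑ m ∈ Finset.range (M + 1), ((m : ℝ) + 1) ^ 2 * (T / 2 ^ m + N / B ^ 8) ≤
      (C₂ + 27) * (T + N ^ (2 / ((d : ℝ) + 2)) / B ^ 3) := by
    have h3 : ∑ m ∈ Finset.range (M + 1), ((m : ℝ) + 1) ^ 2 * (T / 2 ^ m) ≤ C₂ * T := by
      refine le_trans (le_of_eq ?_) (mul_le_mul_of_nonneg_right (h₂ (Finset.range (M + 1))) hT0)
      rw [Finset.sum_mul]
      refine Finset.sum_congr rfl fun m _ => ?_
      rw [neg_mul, Real.exp_neg, mul_comm (Real.log 2), Real.exp_nat_mul,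
        Real.exp_log (by norm_num)]
      ring
    have h4 : ∑ m ∈ Finset.range (M + 1), ((m : ℝ) + 1) ^ 2 * (N / B ^ 8) ≤ 27 * (N / B ^ 5) := by
      refine (Finset.sum_le_card_nsmul _ _ ((3 * B) ^ 2 * (N / B ^ 8)) fun m hm => ?_).trans ?_
      · have : (m : ℝ) ≤ M := by exact_mod_cast Nat.le_of_lt_succ (Finset.mem_range.1 hm)
        gcongr
        linarith
      · rw [Finset.card_range, nsmul_eq_mul]
        push_cast
        calc ((M : ℝ) + 1) * ((3 * B) ^ 2 * (N / B ^ 8)) ≤ 3 * B * ((3 * B) ^ 2 * (N / B ^ 8)) := by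
              gcongr
          _ = _ := by field_simp; norm_num
    simp only [mul_add, Finset.sum_add_distrib]
    have h5 : 0 ≤ N ^ (2 / ((d : ℝ) + 2)) / B ^ 3 := by positivity
    nlinarith
  calc _ ≤ ∑ i ∈ Finset.range (M + 1) ×ˢ Finset.range (L + 1), G *
        ((((i.1 : ℝ) + 1) ^ 2 * (T / 2 ^ i.1 + N / B ^ 8)) *
          (((i.2 : ℝ) + 1) ^ (2 * d + 2) * Real.exp (-θ * i.2))) := by
        refine Finset.sum_le_sum fun i _ => ?_
        have h := kap_le hd h0 h1 hCP hω hN.le hB0 hD hφ (μ := 2 ^ i.1)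
          (one_le_pow₀ (by norm_num)) (Nat.cast_nonneg i.2)
        rw [mul_assoc _ ((2 : ℝ) ^ i.1)]
        refine (mul_le_mul_of_nonneg_left h (by positivity)).trans (le_of_eq ?_)
        rw [hG, hT]
        ring
    _ = G * ((∑ m ∈ Finset.range (M + 1), ((m : ℝ) + 1) ^ 2 * (T / 2 ^ m + N / B ^ 8)) *
          ∑ l ∈ Finset.range (L + 1), ((l : ℝ) + 1) ^ (2 * d + 2) * Real.exp (-θ * l)) := by
        rw [← Finset.mul_sum, Finset.sum_mul_sum, Finset.sum_product]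
    _ ≤ G * (((C₂ + 27) * (T + N ^ (2 / ((d : ℝ) + 2)) / B ^ 3)) * C₁) := by
        refine mul_le_mul_of_nonneg_left (mul_le_mul hm (h₁ _) (by positivity) (by positivity)) hG0
    _ = _ := by ring

end Crest.Agent.N76.II.L0
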