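import Crest.Agent.N76.II.L0.Energy
import Crest.Agent.N76.II.L0.Num
import Crest.Agent.N76.II.Dens

/-! # Row 76, leaf L0: `LB → PhiB → Stop → L0` (helper66). -/

set_option autoImplicit false

open MeasureTheory Set Metric
open scoped ENNReal RealInnerProductSpace

namespace Crest.Agent.N76.II

open Crest.Agent.N76.Red (V)
open Crest.Agent.N76.G

namespace L0

variable {d : ℕ}

theorem ms_mono {ι α : Type*} {X : Finset ι} {p : ι → α} {w : ι → ℝ} (hw : ∀ z ∈ X, 0 ≤ w z)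
    {E E' : Set α} (h : E ⊆ E') : ms X p w E ≤ ms X p w E' := by
  classical
  unfold ms
  exact Finset.sum_le_sum_of_subset_of_nonneg (fun z hz => Finset.mem_filter.2
    ⟨(Finset.mem_filter.1 hz).1, h (Finset.mem_filter.1 hz).2⟩)
    fun z hz _ => hw z (Finset.mem_filter.1 hz).1

open Classical in
theorem count_small {ι : Type*} {X 𝒞 : Finset ι} {p : ι → V d × ℝ} {w : ι → ℝ}
    (hw : ∀ z ∈ X, 0 ≤ w z) {K N S η : ℝ} (hK : 0 < K) (hN0 : 0 < N) (hη : η ≤ 1)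
    (hN : ∀ c ∈ 𝒞, N ≤ ms X p w (closedBall (p c) K))
    (hs : ∀ c ∈ 𝒞, ∀ c' ∈ 𝒞, c ≠ c' → K / 2 ≤ dist (p c) (p c')) {u : V d × ℝ}
    (hu : ∀ r, K ≤ r → r ≤ S / 4 → ms X p w (closedBall u r) ≤ 4 * N * (r / K) ^ η)
    (r : ℝ) (h1 : K ≤ r) (h2 : r ≤ S / 8) :
    ((𝒞.filter fun c => p c ∈ closedBall u r).card : ℝ) ≤ 8 * 10 ^ (d + 1) * (r / K) ^ η := by
  have h3 := count_le X 𝒞 p w hw hK hN hs u r
  have h4 : ms X p w (closedBall u (r + K)) ≤ 4 * N * (2 * r / K) ^ η :=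
    (ms_mono hw (closedBall_subset_closedBall (by linarith))).trans
      (hu (2 * r) (by linarith) (by linarith))
  have hr : 0 ≤ r / K := div_nonneg (by linarith) hK.le
  have h5 : (2 * r / K) ^ η ≤ 2 * (r / K) ^ η := by
    rw [mul_div_assoc, Real.mul_rpow (by norm_num) hr]
    refine mul_le_mul_of_nonneg_right ?_ (by positivity)
    exact (Real.rpow_le_rpow_of_exponent_le (by norm_num) hη).trans (Real.rpow_one 2).le
  have h6 : (5 : ℝ) ^ (d + 1) ≤ 10 ^ (d + 1) := by gcongr; norm_num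
  refine le_of_mul_le_mul_left (h3.trans ?_) hN0
  calc 5 ^ (d + 1) * ms X p w (closedBall u (r + K))
      ≤ 5 ^ (d + 1) * (4 * N * (2 * (r / K) ^ η)) := by
        refine mul_le_mul_of_nonneg_left (h4.trans ?_) (by positivity)
        gcongr
    _ ≤ 10 ^ (d + 1) * (4 * N * (2 * (r / K) ^ η)) := by gcongr
    _ = _ := by ring

open Classical in
theorem count_large {ι : Type*} {X 𝒞 : Finset ι} {p : ι → V d × ℝ} {w : ι → ℝ} {R B K N : ℝ}
    (hR : 1 ≤ R) (hB : 1 ≤ B) (hX : Reg R B X p w) (hK : 0 < K) (hN0 : 1 / B ^ 6 ≤ N)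
    (hN : ∀ c ∈ 𝒞, N ≤ ms X p w (closedBall (p c) K))
    (hs : ∀ c ∈ 𝒞, ∀ c' ∈ 𝒞, c ≠ c' → K / 2 ≤ dist (p c) (p c')) (u : V d × ℝ)
    (r : ℝ) (h1 : 1 ≤ r) :
    ((𝒞.filter fun c => p c ∈ closedBall u r).card : ℝ) ≤ 8 * 10 ^ (d + 1) * B ^ 7 * prd d R r := by
  have hp := one_le_prd (d := d) R r
  have hB0 : 0 < B := by linarith
  have h7 : 1 ≤ B ^ 7 := one_le_pow₀ hB
  have h6 : (5 : ℝ) ^ (d + 1) ≤ 10 ^ (d + 1) := by gcongr; norm_num
  have h10 : (0 : ℝ) < 10 ^ (d + 1) := by positivity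
  rcases le_total r K with h | h
  · have h2 : ((𝒞.filter fun c => p c ∈ closedBall u r).card : ℝ) ≤ 5 ^ (d + 1) :=
      le_trans (Nat.cast_le.2 (Finset.card_le_card fun c hc => Finset.mem_filter.2
        ⟨(Finset.mem_filter.1 hc).1, closedBall_subset_closedBall h (Finset.mem_filter.1 hc).2⟩))
        (card_near_le 𝒞 p hK hs u)
    calc _ ≤ (10 : ℝ) ^ (d + 1) := h2.trans h6
      _ = 1 * 10 ^ (d + 1) * 1 * 1 := by ring
      _ ≤ _ := by gcongr; norm_num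
  · have h3 := count_le X 𝒞 p w hX.1 hK hN hs u r
    have h4 : ms X p w (closedBall u (r + K)) ≤ B * (2 ^ (d + 1) * prd d R r) :=
      (ms_mono hX.1 (closedBall_subset_closedBall (by linarith))).trans
        ((hX.2 u (2 * r) (by linarith)).trans (mul_le_mul_of_nonneg_left
          (prd_mul_le hR (by linarith) (by norm_num)) hB0.le))
    have h5 : 1 ≤ B ^ 6 * N := by rwa [div_le_iff₀ (by positivity), mul_comm] at hN0
    set n := ((𝒞.filter fun c => p c ∈ closedBall u r).card : ℝ) with hn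
    have hn0 : 0 ≤ n := Nat.cast_nonneg _
    calc n ≤ B ^ 6 * N * n := le_mul_of_one_le_left hn0 h5
      _ = B ^ 6 * (N * n) := mul_assoc _ _ _
      _ ≤ B ^ 6 * (5 ^ (d + 1) * (B * (2 ^ (d + 1) * prd d R r))) :=
          mul_le_mul_of_nonneg_left (h3.trans (mul_le_mul_of_nonneg_left h4 (by positivity)))
            (by positivity)
      _ = 1 * 10 ^ (d + 1) * B ^ 7 * prd d R r := by
          rw [show (10 : ℝ) = 5 * 2 by norm_num, mul_pow]; ring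
      _ ≤ _ := by gcongr; norm_num

theorem log_card_le {n : ℕ} {B : ℝ} (hB : 1 ≤ B) (h : Real.log (n + 1) ≤ B) :
    (Nat.log 2 n : ℝ) + 1 ≤ 3 * B := by
  have h1 : ((2 ^ Nat.log 2 n : ℕ) : ℝ) ≤ ((n + 1 : ℕ) : ℝ) :=
    Nat.cast_le.2 (Nat.pow_log_le_add_one 2 n)
  push_cast at h1
  have h2 := Real.log_le_log (by positivity) h1
  rw [Real.log_pow] at h2
  have h3 := Real.log_two_gt_d9
  have h4 : (0 : ℝ) ≤ Nat.log 2 n := Nat.cast_nonneg _
  nlinarith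

end L0

open L0 in
theorem l0_of (d : ℕ) (hd : 1 ≤ d) : LB d → PhiB d → Stop d → L0 d := by
  classical
  rintro ⟨CL, hCL, hLB⟩ hPhi ⟨C₂, B₀, hC₂, hStop⟩ θ hθ0 hθ1
  obtain ⟨CP, hCP, hP⟩ := hPhi (θ / 16) (8 * 10 ^ (d + 1)) (by positivity) (by linarith)
    (one_le_mul_of_one_le_of_one_le (by norm_num) (one_le_pow₀ (by norm_num)))
  obtain ⟨CN, hCN, hnet⟩ := exists_dirnet d
  obtain ⟨CS, hCS, hsum⟩ := sum_kap_le hd hθ0 hθ1.le hCP (om_nonneg d)
  set E := 12 * om d ^ 2 * (CL * (2 + Real.exp Real.pi * C₂) * Real.exp 5) with hE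
  have hE0 : 0 ≤ E := by positivity
  have hEC : 0 ≤ E * CS := by positivity
  have h9 : 1 ≤ 2 ^ d * Real.exp 9 :=
    one_le_mul_of_one_le_of_one_le (one_le_pow₀ (by norm_num)) (Real.one_le_exp (by norm_num))
  set C := CN + C₂ + E * CS + 3 * (2 ^ d * Real.exp 9) with hC
  refine ⟨θ / 16, by positivity, by linarith, C, max B₀ 1, by linarith, ?_⟩
  intro R B K N a t b hR hB hBK hKS hBS hN1 hNB hKa hKaB haS hb1 hbB ι X p w hX 𝒞 hlog hN hsep
    hgr ht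
  have hB1 : 1 ≤ B := (le_max_right _ _).trans hB
  have hB0 : 0 < B := by linarith
  have hK : 1 ≤ K := hB1.trans hBK
  have hK0 : 0 < K := by linarith
  have hN0 : 0 < N := lt_of_lt_of_le (by positivity) hN1
  set S := Ssc (d + 1) R with hS
  have hS1 : 1 ≤ S := one_le_Ssc hR _
  have hS0 : 0 < S := by linarith
  set rlo := S ^ 2 / B ^ 30 with hrlo
  have hr0 : 0 < rlo := by positivity
  have hr : K * a ≤ rlo := by rwa [hrlo, le_div_iff₀ (by positivity)]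
  have hb' : K * ((b + 1) * K) ≤ rlo := by
    rw [hrlo, le_div_iff₀ (by positivity)]
    calc K * ((b + 1) * K) * B ^ 30 ≤ K * ((B + B) * K) * B ^ 30 := by gcongr
      _ = 2 * K ^ 2 * B ^ 31 := by ring
      _ ≤ S * S := by
          have : 2 * K ^ 2 ≤ S := by nlinarith [sq_nonneg K]
          gcongr
      _ = S ^ 2 := by ring
  obtain ⟨Λ, hΛ3, hΛ, hΛc, hΛs⟩ := hnet K hK
  have hKK : K ^ 2 * B ^ 30 ≤ S ^ 2 := le_trans (by rw [pow_two]; gcongr) hKaB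
  choose! J js Ω hJ using fun (ζ : V d) (hζ : ‖ζ‖ ≤ 4) =>
    hStop R B K N hR ((le_max_left _ _).trans hB) hK hKK hN1 hNB ι X p w hX 𝒞 hN hsep ζ hζ rlo rfl
  have hJ' := fun ζ (hζ : ζ ∈ Λ) => hJ ζ ((hΛ3 ζ hζ).trans (by norm_num))
  have hSD : ∀ ζ ∈ Λ, SD 𝒞 p K rlo a C₂ (rlo / (10 * K)) ζ (J ζ) (js ζ) (Ω ζ) := fun ζ hζ => by
    obtain ⟨h1, h2, h3, h4, h5, -⟩ := hJ' ζ hζ
    exact ⟨by linarith, h2, h3, h4, h5⟩
  refine ⟨Λ, fun ζ => WW rlo (J ζ) (Ω ζ), hΛc.trans (by gcongr; linarith),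
    fun ξ => (hΛs ξ).trans (by linarith), fun ζ hζ => ?_, fun ζ hζ u => ?_, ?_⟩
  · have h := nice_WW hr0 (J ζ) (hSD ζ hζ).2.2.2.1
    have e : 2 / rlo = 2 * B ^ 30 / S ^ 2 := by rw [hrlo]; field_simp
    rwa [e] at h
  · refine ((hJ' ζ hζ).2.2.2.2.2 u).trans (mul_le_mul_of_nonneg_right (by linarith) ?_)
    exact add_nonneg (vv_nonneg hX.1 (by positivity) u) (by positivity)
  intro Y π D hY hD0 hπ hm hD c φ₀ Ef Φ hc hφ hEf hΦ
  have hw : ∀ z ∈ Y, 0 ≤ w z := fun z hz => hX.1 z (hY hz)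
  have h := energy hCL hLB hSD hΛ hK hKa hr hC₂ (by linarith : 0 ≤ b) (by positivity : 0 ≤ 2 * N)
    hb' ht (fun m => CP * (((2 : ℝ) ^ m) ^ (-(d : ℝ) / (4 * (θ / 16))) + 1 / (B ^ 8 * 2 ^ m)))
    (fun m => by positivity)
    (fun k hk m => hP R B K hR hB1 hK hKS
      (le_trans (pow_le_pow_right₀ hB1 (by norm_num)) hBS) ι 𝒞 p (p k)
      (count_small hX.1 hK0 hN0 (by linarith) hN hsep (hgr k hk))
      (count_large hR hB1 hX hK0 hN1 hN hsep (p k)) (2 ^ m) (by positivity))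
    hw hD0 hπ hm hD hc hφ hΦ
  refine h.trans (add_le_add ?_ ?_)
  · have ha2 : 0 ≤ a ^ 2 := by positivity
    refine mul_le_mul_of_nonneg_right ?_ (integral_nonneg fun β => mul_nonneg
      (Finset.sum_nonneg fun ζ hζ => mul_nonneg (Real.exp_pos _).le
        (xray_nonneg' (nice_WW hr0 _ (hSD ζ hζ).2.2.2.1) (by linarith) β)) (by positivity))
    refine (mul_le_mul_of_nonneg_left (hsum _ _ N B D φ₀ hN0 hB1 hNB (log_card_le hB1 hlog)
      hD0 hφ) hE0).trans ?_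
    rw [← mul_assoc]
    exact mul_le_mul_of_nonneg_right (by linarith) (by positivity)
  · have h0 : 0 ≤ ∑ z ∈ Y, w z := Finset.sum_nonneg hw
    have h1 : 0 ≤ ∫ β, ‖c β‖ ^ 2 := integral_nonneg fun β => by positivity
    have h2 : Ef + 2 ^ d * Real.exp (9 - b) * ∫ β, ‖c β‖ ^ 2 ≤
        2 ^ d * Real.exp 9 * (Ef + Real.exp (-b) * ∫ β, ‖c β‖ ^ 2) := by
      rw [sub_eq_add_neg, Real.exp_add]
      nlinarith
    calc 3 * (∑ z ∈ Y, w z) * (Ef + 2 ^ d * Real.exp (9 - b) * ∫ β, ‖c β‖ ^ 2)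
        ≤ 3 * (∑ z ∈ Y, w z) * (2 ^ d * Real.exp 9 * (Ef + Real.exp (-b) * ∫ β, ‖c β‖ ^ 2)) :=
          mul_le_mul_of_nonneg_left h2 (by positivity)
      _ = 3 * (2 ^ d * Real.exp 9) * (∑ z ∈ Y, w z) * (Ef + Real.exp (-b) * ∫ β, ‖c β‖ ^ 2) := by
          ring
      _ ≤ _ := by
          refine mul_le_mul_of_nonneg_right (mul_le_mul_of_nonneg_right (by linarith) h0) ?_
          positivity

end Crest.Agent.N76.II
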