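import Crest.Agent.N76.II.L0.Gs

/-! # Row 76, leaf L0: the Bessel sum over the centres for one direction (helper66). -/

set_option autoImplicit false

open MeasureTheory Set Metric
open scoped ENNReal RealInnerProductSpace

namespace Crest.Agent.N76.II.L0

open Crest.Agent.N76.Red (V)
open Crest.Agent.N76.G

variable {d : ℕ}

/-- the body of `LB` -/
def LBC (d : ℕ) (C : ℝ) : Prop :=
  ∀ (κ : Type) (s : Finset κ) (u : κ → V d × ℝ) (ζ : V d) (K r a t t₀ μ : ℝ),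
    0 < K → K ≤ a → K * a ≤ r → |t - t₀| ≤ 2 * a ^ 2 → (∀ k ∈ s, |(u k).2 - t₀| ≤ 2 * r) →
    0 ≤ μ → (∀ k ∈ s, ∑ k' ∈ s, Gs K (Real.pi / 2) (u k) (u k') ζ ≤ μ) →
    ∀ (Ω : Ph d → ℝ) (Ωm : ℝ), Measurable Ω → (∀ β, 0 ≤ Ω β ∧ Ω β ≤ Ωm) →
    (∀ β, ∀ k ∈ s, Real.exp (-(K / r) * ‖pos t₀ (β - lin (u k) ζ)‖) ≤ Ω β) →
    ∀ c : Ph d → ℂ, MemLp c 2 volume →
    ∑ k ∈ s, ‖co K (u k).2 (syn a t c) (lin (u k) ζ)‖ ^ 2 ≤
      C * μ * ∫ β, Real.exp (-K * ‖β.2 - ζ‖) * Ω β * ‖c β‖ ^ 2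

open Classical in
/-- the number of centres seen at small times in direction `ζ` -/
noncomputable def clow {ι : Type*} (𝒞 : Finset ι) (p : ι → V d × ℝ) (K rlo : ℝ) (k : ι)
    (ζ : V d) : ℝ :=
  ∑ c ∈ 𝒞.filter (fun c => |(p c).2 - (p k).2| ≤ 2 * rlo), Gs K (Real.pi / 8) (p k) (p c) ζ

open Classical in
/-- the part of the stopping data that is used for the Bessel sum -/
def SD {ι : Type*} (𝒞 : Finset ι) (p : ι → V d × ℝ) (K rlo a C r₀ : ℝ) (ζ : V d) (J : ℕ)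
    (js : ι → ℕ) (Ω : ℕ → V d × ℝ → ℝ) : Prop :=
  rlo * 2 ^ J ≤ a ^ 2 / 2 ∧ (∀ c ∈ 𝒞, js c ≤ J) ∧
    (∀ c ∈ 𝒞, ∑ c' ∈ 𝒞.filter (fun c' => js c' = js c ∧ 2 * rlo < |(p c').2 - (p c).2| ∧
        |(p c').2 - (p c).2| ≤ rlo * 2 ^ js c), Gs K (Real.pi / 4) (p c) (p c') ζ ≤ C) ∧
    (∀ j, Nice (Ω j) 1 r₀) ∧
    (∀ c ∈ 𝒞, ∀ u, Real.exp (-(K * ‖(lin u ζ - lin (p c) ζ).1‖ + |u.2 - (p c).2|) /
        (rlo * 2 ^ js c)) ≤ Ω (js c) u)

/-- the weight of a direction -/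
noncomputable def WW (rlo : ℝ) (J : ℕ) (Ω : ℕ → V d × ℝ → ℝ) (u : V d × ℝ) : ℝ :=
  ∑ j ∈ Finset.range (J + 1), Ω j u / (rlo * 2 ^ j)

theorem nice_WW {rlo r₀ : ℝ} (hr : 0 < rlo) (J : ℕ) {Ω : ℕ → V d × ℝ → ℝ}
    (hΩ : ∀ j, Nice (Ω j) 1 r₀) : Nice (WW rlo J Ω) (2 / rlo) r₀ := by
  refine ⟨continuous_finsetSum _ fun j _ => (hΩ j).1.div_const _, fun u => ⟨?_, ?_⟩,
    fun u u' => ?_⟩
  · exact Finset.sum_nonneg fun j _ => div_nonneg ((hΩ j).2.1 u).1 (by positivity)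
  · calc WW rlo J Ω u ≤ ∑ j ∈ Finset.range (J + 1), 1 / rlo * (1 / 2) ^ j := by
          refine Finset.sum_le_sum fun j _ => ?_
          rw [one_div_pow, div_mul_div_comm, one_mul]
          exact div_le_div_of_nonneg_right ((hΩ j).2.1 u).2 (by positivity)
      _ ≤ 1 / rlo * 2 := by
          rw [← Finset.mul_sum]
          exact mul_le_mul_of_nonneg_left (sum_geometric_two_le _) (by positivity)
      _ = 2 / rlo := by ring
  · unfold WW
    rw [Finset.mul_sum]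
    refine Finset.sum_le_sum fun j _ => ?_
    rw [← mul_div_assoc]
    exact div_le_div_of_nonneg_right ((hΩ j).2.2 u u') (by positivity)

theorem integrable_wt {c : Ph d → ℂ} (hc : MemLp c 2 volume) {g : Ph d → ℝ} (hg : Measurable g)
    {M : ℝ} (h : ∀ β, 0 ≤ g β ∧ g β ≤ M) : Integrable fun β => g β * ‖c β‖ ^ 2 := by
  have h1 : Integrable fun β => ‖c β‖ ^ 2 := (memLp_two_iff_integrable_sq_norm hc.1).1 hc
  exact h1.bdd_mul hg.aestronglyMeasurable (c := M) (Filter.Eventually.of_forall fun β => by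
    rw [Real.norm_of_nonneg (h β).1]; exact (h β).2)

theorem exp_dir_le {K : ℝ} (hK : 0 ≤ K) (ζ : V d) (β : Ph d) :
    Real.exp (-K * ‖β.2 - ζ‖) ≤ 1 :=
  Real.exp_le_one_iff.2 (by have := mul_nonneg hK (norm_nonneg (β.2 - ζ)); linarith)

open Classical in
/-- one scale `j`, one time `t₀` -/
theorem bes_scale {C : ℝ} (hLB : LBC d C) {ι : Type} {𝒞 : Finset ι} {p : ι → V d × ℝ}
    {K rlo a C₂ r₀ t μ : ℝ} {ζ ζ' x : V d} {J : ℕ} {js : ι → ℕ} {Ω : ℕ → V d × ℝ → ℝ}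
    (hSD : SD 𝒞 p K rlo a C₂ r₀ ζ J js Ω) (hK : 0 < K) (hKa : K ≤ a) (hr : K * a ≤ rlo)
    (hC₂ : 0 ≤ C₂) (hμ : 0 ≤ μ) (hζ : ‖ζ' - ζ‖ ≤ 1 / K) (hx : K * ‖x‖ ≤ rlo)
    {c : Ph d → ℂ} (hc : MemLp c 2 volume) {t₀ : ℝ} (ht₀ : |t - t₀| ≤ 2 * a ^ 2) (j : ℕ)
    (T : Finset ι) (hT : T ⊆ 𝒞) (hcl : ∀ k ∈ T, clow 𝒞 p K rlo k ζ' ≤ μ)
    (hj : ∀ k ∈ T, js k = j)
    (ht : ∀ k ∈ T, (p k).2 ≤ t₀ ∧ t₀ ≤ (p k).2 + rlo * 2 ^ j) :
    ∑ k ∈ T, ‖co K (p k).2 (syn a t c) (lin ((p k).1 + x, (p k).2) ζ')‖ ^ 2 ≤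
      C * (μ + Real.exp Real.pi * C₂) * Real.exp 4 *
        ∫ β, Real.exp (-K * ‖β.2 - ζ'‖) * Ω j (pos t₀ β, t₀) * ‖c β‖ ^ 2 := by
  obtain ⟨-, -, hrow, hN, hlow⟩ := hSD
  have ha : 0 < a := by linarith
  have hr0 : 0 < rlo := lt_of_lt_of_le (by positivity) hr
  have hs : rlo ≤ rlo * 2 ^ j := le_mul_of_one_le_right hr0.le (one_le_pow₀ (by norm_num))
  have hs0 : 0 < rlo * 2 ^ j := by positivity
  have hpi := Real.pi_pos
  have h := hLB ι T (fun k => ((p k).1 + x, (p k).2)) ζ' K (rlo * 2 ^ j) a t t₀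
    (μ + Real.exp Real.pi * C₂) hK hKa (hr.trans hs) ht₀
    (fun k hk => by
      have := ht k hk
      rw [abs_le]
      constructor <;> linarith [this.1, this.2])
    (by positivity)
    (fun k hk => by
      simp only [gs_shift]
      rw [← Finset.sum_filter_add_sum_filter_not T (fun k' => |(p k').2 - (p k).2| ≤ 2 * rlo)]
      refine add_le_add ?_ ?_
      · refine le_trans ?_ (hcl k hk)
        refine (Finset.sum_le_sum fun k' _ => gs_mono (c := Real.pi / 8) hK (by linarith) _ _ _).trans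
          ?_
        unfold clow
        exact Finset.sum_le_sum_of_subset_of_nonneg (fun k' hk' => Finset.mem_filter.2
          ⟨hT (Finset.mem_filter.1 hk').1, (Finset.mem_filter.1 hk').2⟩)
          fun _ _ _ => gs_nonneg hK _ _ _ _
      · refine (Finset.sum_le_sum fun k' _ => gs_dir hK _ _ hζ).trans ?_
        rw [← Finset.mul_sum]
        refine mul_le_mul_of_nonneg_left (le_trans ?_ (hrow k (hT hk))) (Real.exp_pos _).le
        refine Finset.sum_le_sum_of_subset_of_nonneg (fun k' hk' => ?_)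
          fun _ _ _ => gs_nonneg hK _ _ _ _
        obtain ⟨h1, h2⟩ := Finset.mem_filter.1 hk'
        refine Finset.mem_filter.2 ⟨hT h1, by rw [hj k hk, hj k' h1], not_le.1 h2, ?_⟩
        have h3 := ht k hk
        have h4 := ht k' h1
        rw [hj k hk, abs_le]
        constructor <;> linarith [h3.1, h3.2, h4.1, h4.2])
    (fun β => Real.exp 4 * Ω j (pos t₀ β, t₀)) (Real.exp 4)
    (measurable_const.mul ((hN j).1.comp ((continuous_pos t₀).prodMk continuous_const)).measurable)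
    (fun β => ⟨mul_nonneg (Real.exp_pos _).le ((hN j).2.1 _).1,
      mul_le_of_le_one_right (Real.exp_pos _).le ((hN j).2.1 _).2⟩)
    (fun β k hk => by
      have h1 := hlow k (hT hk) (pos t₀ β, t₀)
      rw [hj k hk] at h1
      refine le_trans ?_ (mul_le_mul_of_nonneg_left h1 (Real.exp_pos _).le)
      rw [← Real.exp_add]
      refine Real.exp_le_exp.2 ?_
      set y := pos t₀ (β - lin ((p k).1 + x, (p k).2) ζ') with hy
      have e : (lin (pos t₀ β, t₀) ζ - lin (p k) ζ).1 =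
          y + (x + (2 * ((p k).2 - t₀)) • (ζ' - ζ)) := by
        rw [lin_sub, hy, pos_sub, pos_lin']
        simp only [smul_sub, mul_sub, sub_smul]
        abel
      have h2 := ht k hk
      have h3 : |t₀ - (p k).2| ≤ rlo * 2 ^ j := by
        rw [abs_le]; constructor <;> linarith [h2.1, h2.2]
      have h4 : K * ‖(2 * ((p k).2 - t₀)) • (ζ' - ζ)‖ ≤ 2 * (rlo * 2 ^ j) := by
        rw [norm_smul, Real.norm_eq_abs, abs_mul, abs_two, abs_sub_comm]
        have h5 : K * ‖ζ' - ζ‖ ≤ 1 := by rwa [le_div_iff₀ hK, mul_comm] at hζ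
        calc K * (2 * |t₀ - (p k).2| * ‖ζ' - ζ‖) = 2 * |t₀ - (p k).2| * (K * ‖ζ' - ζ‖) := by ring
          _ ≤ 2 * (rlo * 2 ^ j) * 1 := by gcongr
          _ = _ := mul_one _
      have h6 : ‖(lin (pos t₀ β, t₀) ζ - lin (p k) ζ).1‖ ≤
          ‖y‖ + (‖x‖ + ‖(2 * ((p k).2 - t₀)) • (ζ' - ζ)‖) := by
        rw [e]
        exact (norm_add_le _ _).trans (add_le_add_right (norm_add_le _ _) _)
      have h7 := mul_le_mul_of_nonneg_left h6 hK.le
      have h8 : -(K / (rlo * 2 ^ j)) * ‖y‖ = -(K * ‖y‖) / (rlo * 2 ^ j) := by ring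
      rw [h8, ← sub_le_iff_le_add', le_div_iff₀ hs0, sub_mul, div_mul_cancel₀ _ hs0.ne']
      simp only
      linarith)
    c hc
  refine h.trans (le_of_eq ?_)
  rw [mul_assoc _ (Real.exp 4), ← integral_const_mul (Real.exp 4)]
  congr 2
  funext β
  ring

open Classical in
/-- all scales, one time `t₀` -/
theorem bes_time {C : ℝ} (hLB : LBC d C) {ι : Type} {𝒞 : Finset ι} {p : ι → V d × ℝ}
    {K rlo a C₂ r₀ t μ : ℝ} {ζ ζ' x : V d} {J : ℕ} {js : ι → ℕ} {Ω : ℕ → V d × ℝ → ℝ}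
    (hSD : SD 𝒞 p K rlo a C₂ r₀ ζ J js Ω) (hK : 0 < K) (hKa : K ≤ a) (hr : K * a ≤ rlo)
    (hC₂ : 0 ≤ C₂) (hμ : 0 ≤ μ) (hζ : ‖ζ' - ζ‖ ≤ 1 / K) (hx : K * ‖x‖ ≤ rlo)
    {c : Ph d → ℂ} (hc : MemLp c 2 volume) {t₀ : ℝ} (ht₀ : |t - t₀| ≤ 2 * a ^ 2)
    (S : Finset ι) (hS : S ⊆ 𝒞) (hcl : ∀ k ∈ S, clow 𝒞 p K rlo k ζ' ≤ μ) :
    ∑ k ∈ S, (Icc (p k).2 ((p k).2 + rlo * 2 ^ js k)).indicator (fun _ =>
        ‖co K (p k).2 (syn a t c) (lin ((p k).1 + x, (p k).2) ζ')‖ ^ 2 / (rlo * 2 ^ js k)) t₀ ≤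
      C * (μ + Real.exp Real.pi * C₂) * Real.exp 4 *
        ∫ β, Real.exp (-K * ‖β.2 - ζ'‖) * WW rlo J Ω (pos t₀ β, t₀) * ‖c β‖ ^ 2 := by
  have ha : 0 < a := by linarith
  have hr0 : 0 < rlo := lt_of_lt_of_le (by positivity) hr
  have hN := hSD.2.2.2.1
  set F : ι → ℝ := fun k => ‖co K (p k).2 (syn a t c) (lin ((p k).1 + x, (p k).2) ζ')‖ ^ 2 with hF
  set T := S.filter fun k => t₀ ∈ Icc (p k).2 ((p k).2 + rlo * 2 ^ js k) with hT
  have hi : ∀ j, Integrable fun β : Ph d =>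
      Real.exp (-K * ‖β.2 - ζ'‖) * Ω j (pos t₀ β, t₀) * ‖c β‖ ^ 2 := fun j =>
    integrable_wt hc (M := 1) (Continuous.measurable ((by fun_prop : Continuous fun β : Ph d =>
      Real.exp (-K * ‖β.2 - ζ'‖)).mul ((hN j).1.comp ((continuous_pos t₀).prodMk continuous_const))))
      fun β => ⟨mul_nonneg (Real.exp_pos _).le ((hN j).2.1 _).1,
        mul_le_one₀ (exp_dir_le hK.le _ _) ((hN j).2.1 _).1 ((hN j).2.1 _).2⟩
  calc ∑ k ∈ S, (Icc (p k).2 ((p k).2 + rlo * 2 ^ js k)).indicator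
        (fun _ => F k / (rlo * 2 ^ js k)) t₀ = ∑ k ∈ T, F k / (rlo * 2 ^ js k) := by
        rw [hT, Finset.sum_filter]
        exact Finset.sum_congr rfl fun k _ => by simp only [indicator]
    _ = ∑ j ∈ Finset.range (J + 1), ∑ k ∈ T.filter (fun k => js k = j), F k / (rlo * 2 ^ js k) :=
        (Finset.sum_fiberwise_of_maps_to (fun k hk => Finset.mem_range.2 (Nat.lt_succ_of_le
          (hSD.2.1 k (hS (Finset.mem_filter.1 hk).1)))) _).symm
    _ ≤ ∑ j ∈ Finset.range (J + 1), C * (μ + Real.exp Real.pi * C₂) * Real.exp 4 *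
          ((∫ β, Real.exp (-K * ‖β.2 - ζ'‖) * Ω j (pos t₀ β, t₀) * ‖c β‖ ^ 2) / (rlo * 2 ^ j)) := by
        refine Finset.sum_le_sum fun j _ => ?_
        rw [Finset.sum_congr rfl (g := fun k => F k / (rlo * 2 ^ j))
          (fun k hk => by rw [(Finset.mem_filter.1 hk).2]), ← Finset.sum_div, ← mul_div_assoc]
        refine div_le_div_of_nonneg_right ?_ (by positivity)
        refine bes_scale hLB hSD hK hKa hr hC₂ hμ hζ hx hc ht₀ j _
          (fun k hk => hS (Finset.mem_filter.1 (Finset.mem_filter.1 hk).1).1)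
          (fun k hk => hcl k (Finset.mem_filter.1 (Finset.mem_filter.1 hk).1).1)
          (fun k hk => (Finset.mem_filter.1 hk).2) (fun k hk => ?_)
        have h1 := (Finset.mem_filter.1 (Finset.mem_filter.1 hk).1).2
        rw [(Finset.mem_filter.1 hk).2] at h1
        exact h1
    _ = _ := by
        rw [← Finset.mul_sum]
        congr 1
        simp only [← integral_div]
        rw [← integral_finsetSum _ fun j _ => (hi j).div_const _]
        congr 1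
        funext β
        simp only [WW, Finset.mul_sum, Finset.sum_mul]
        exact Finset.sum_congr rfl fun j _ => by ring

theorem integrable_xr {c : Ph d → ℂ} (hc : MemLp c 2 volume) {W : V d × ℝ → ℝ} {Mx r₀ K : ℝ}
    (hW : Nice W Mx r₀) (hK : 0 ≤ K) (ζ : V d) (A B : ℝ) :
    Integrable (Function.uncurry fun (s : ℝ) (β : Ph d) =>
      Real.exp (-K * ‖β.2 - ζ‖) * W (pos s β, s) * ‖c β‖ ^ 2)
      ((volume.restrict (uIoc A B)).prod volume) := by
  have h1 : Integrable fun β => ‖c β‖ ^ 2 := (memLp_two_iff_integrable_sq_norm hc.1).1 hc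
  have : IsFiniteMeasure (volume.restrict (uIoc A B)) := by
    rw [uIoc]; infer_instance
  have hcont : Continuous fun q : ℝ × Ph d =>
      Real.exp (-K * ‖q.2.2 - ζ‖) * W (pos q.1 q.2, q.1) := by
    refine Continuous.mul (by fun_prop) (hW.1.comp ?_)
    unfold pos
    fun_prop
  refine (h1.comp_snd (volume.restrict (uIoc A B))).bdd_mul (c := Mx)
    hcont.aestronglyMeasurable (Filter.Eventually.of_forall fun q => ?_)
  have h2 := hW.2.1 (pos q.1 q.2, q.1)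
  rw [Real.norm_of_nonneg (mul_nonneg (Real.exp_pos _).le h2.1)]
  exact (mul_le_of_le_one_left h2.1 (exp_dir_le hK _ _)).trans h2.2

theorem xray_mul (W : V d × ℝ → ℝ) (A B e n : ℝ) (β : Ph d) :
    ∫ s in A..B, e * W (pos s β, s) * n = e * xray W A B β * n := by
  rw [intervalIntegral.integral_mul_const, intervalIntegral.integral_const_mul, xray]

theorem integrable_xray {c : Ph d → ℂ} (hc : MemLp c 2 volume) {W : V d × ℝ → ℝ} {Mx r₀ K : ℝ}
    (hW : Nice W Mx r₀) (hK : 0 ≤ K) (ζ : V d) {A B : ℝ} (hAB : A ≤ B) :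
    Integrable fun β : Ph d => Real.exp (-K * ‖β.2 - ζ‖) * xray W A B β * ‖c β‖ ^ 2 := by
  have h := (integrable_xr hc hW hK ζ A B).integral_prod_right
  refine h.congr (Filter.Eventually.of_forall fun β => ?_)
  simp only [Function.uncurry]
  rw [← xray_mul, intervalIntegral.integral_of_le hAB, uIoc_of_le hAB]

theorem xray_nonneg' {W : V d × ℝ → ℝ} {Mx r₀ : ℝ} (hW : Nice W Mx r₀) {A B : ℝ} (hAB : A ≤ B)
    (β : Ph d) : 0 ≤ xray W A B β :=
  intervalIntegral.integral_nonneg hAB fun _ _ => (hW.2.1 _).1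

open Classical in
/-- the Bessel sum for one translate `x` and one direction `ζ'` -/
theorem bes_dir {C : ℝ} (hC : 0 ≤ C) (hLB : LBC d C) {ι : Type} {𝒞 : Finset ι} {p : ι → V d × ℝ}
    {K rlo a C₂ r₀ t μ : ℝ} {ζ ζ' x : V d} {J : ℕ} {js : ι → ℕ} {Ω : ℕ → V d × ℝ → ℝ}
    (hSD : SD 𝒞 p K rlo a C₂ r₀ ζ J js Ω) (hK : 0 < K) (hKa : K ≤ a) (hr : K * a ≤ rlo)
    (hC₂ : 0 ≤ C₂) (hμ : 0 ≤ μ) (hζ : ‖ζ' - ζ‖ ≤ 1 / K) (hx : K * ‖x‖ ≤ rlo)
    (ht : ∀ k ∈ 𝒞, t ≤ (p k).2 ∧ (p k).2 ≤ t + a ^ 2)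
    {c : Ph d → ℂ} (hc : MemLp c 2 volume)
    (S : Finset ι) (hS : S ⊆ 𝒞) (hcl : ∀ k ∈ S, clow 𝒞 p K rlo k ζ' ≤ μ) :
    ∑ k ∈ S, ‖co K (p k).2 (syn a t c) (lin ((p k).1 + x, (p k).2) ζ')‖ ^ 2 ≤
      C * (μ + Real.exp Real.pi * C₂) * Real.exp 5 *
        ∫ β, Real.exp (-K * ‖β.2 - ζ‖) *
          xray (WW rlo J Ω) (t - a ^ 2 / 2) (t + 3 * a ^ 2 / 2) β * ‖c β‖ ^ 2 := by
  have ha : 0 < a := by linarith
  have ha2 : 0 < a ^ 2 := by positivity
  have hr0 : 0 < rlo := lt_of_lt_of_le (by positivity) hr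
  have hW := nice_WW hr0 J hSD.2.2.2.1
  set A := t - a ^ 2 / 2 with hA
  set B := t + 3 * a ^ 2 / 2 with hB
  have hAB : A ≤ B := by rw [hA, hB]; linarith
  set F : ι → ℝ := fun k => ‖co K (p k).2 (syn a t c) (lin ((p k).1 + x, (p k).2) ζ')‖ ^ 2 with hF
  set C' := C * (μ + Real.exp Real.pi * C₂) * Real.exp 4 with hC'
  have hC'0 : 0 ≤ C' := by positivity
  have hi := integrable_xr hc hW hK.le ζ' A B
  have hsub : ∀ k ∈ S, Icc (p k).2 ((p k).2 + rlo * 2 ^ js k) ⊆ Ioc A B := by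
    intro k hk s hs
    have h1 := ht k (hS hk)
    have h2 : rlo * 2 ^ js k ≤ a ^ 2 / 2 :=
      le_trans (mul_le_mul_of_nonneg_left (pow_le_pow_right₀ (by norm_num) (hSD.2.1 k (hS hk)))
        hr0.le) hSD.1
    exact ⟨by rw [hA]; linarith [hs.1, h1.1], by rw [hB]; linarith [hs.2, h1.2]⟩
  have hind : ∀ k ∈ S, Integrable ((Icc (p k).2 ((p k).2 + rlo * 2 ^ js k)).indicator
      fun _ : ℝ => F k / (rlo * 2 ^ js k)) (volume.restrict (Ioc A B)) := fun k _ =>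
    (integrable_const _).indicator measurableSet_Icc
  calc ∑ k ∈ S, F k = ∑ k ∈ S, ∫ s in Ioc A B, (Icc (p k).2 ((p k).2 + rlo * 2 ^ js k)).indicator
          (fun _ : ℝ => F k / (rlo * 2 ^ js k)) s := by
        refine Finset.sum_congr rfl fun k hk => ?_
        have hs0 : 0 < rlo * 2 ^ js k := by positivity
        rw [setIntegral_indicator measurableSet_Icc, inter_eq_right.2 (hsub k hk),
          setIntegral_const, Real.volume_real_Icc_of_le (by linarith), smul_eq_mul,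
          add_sub_cancel_left, mul_div_cancel₀ _ hs0.ne']
    _ = ∫ s in Ioc A B, ∑ k ∈ S, (Icc (p k).2 ((p k).2 + rlo * 2 ^ js k)).indicator
          (fun _ : ℝ => F k / (rlo * 2 ^ js k)) s := (integral_finsetSum _ hind).symm
    _ ≤ ∫ s in Ioc A B, C' *
          ∫ β, Real.exp (-K * ‖β.2 - ζ'‖) * WW rlo J Ω (pos s β, s) * ‖c β‖ ^ 2 := by
        refine integral_mono_ae (integrable_finsetSum _ hind) ?_ ?_
        · have := hi.integral_prod_left
          rw [uIoc_of_le hAB] at this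
          exact this.const_mul C'
        · refine (ae_restrict_iff' measurableSet_Ioc).2 (Filter.Eventually.of_forall fun s hs => ?_)
          refine bes_time hLB hSD hK hKa hr hC₂ hμ hζ hx hc ?_ S hS hcl
          rw [abs_le]
          have h1 := hs.1
          have h2 := hs.2
          rw [hA] at h1
          rw [hB] at h2
          constructor <;> linarith
    _ = C' * ∫ β, Real.exp (-K * ‖β.2 - ζ'‖) * xray (WW rlo J Ω) A B β * ‖c β‖ ^ 2 := by
        rw [integral_const_mul, ← intervalIntegral.integral_of_le hAB,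
          intervalIntegral_integral_swap hi]
        simp only [xray_mul]
    _ ≤ C' * ∫ β, Real.exp 1 *
          (Real.exp (-K * ‖β.2 - ζ‖) * xray (WW rlo J Ω) A B β * ‖c β‖ ^ 2) := by
        refine mul_le_mul_of_nonneg_left (integral_mono (integrable_xray hc hW hK.le _ hAB)
          ((integrable_xray hc hW hK.le _ hAB).const_mul _) fun β => ?_) hC'0
        simp only [← mul_assoc]
        refine mul_le_mul_of_nonneg_right (mul_le_mul_of_nonneg_right ?_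
          (xray_nonneg' hW hAB β)) (by positivity)
        rw [← Real.exp_add]
        refine Real.exp_le_exp.2 ?_
        have h5 : K * ‖ζ' - ζ‖ ≤ 1 := by rwa [le_div_iff₀ hK, mul_comm] at hζ
        have h6 : ‖β.2 - ζ‖ ≤ ‖β.2 - ζ'‖ + ‖ζ' - ζ‖ := norm_sub_le_norm_sub_add_norm_sub _ _ _
        nlinarith
    _ = _ := by
        rw [integral_const_mul, hC', show (5 : ℝ) = 4 + 1 by norm_num, Real.exp_add]
        ring

end Crest.Agent.N76.II.L0
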