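import Crest.Agent.N76.II.L0.Gs

/-! # Row 76, leaf L0: the pieces of one cluster (helper66). -/

set_option autoImplicit false

open MeasureTheory Set Metric
open scoped ENNReal RealInnerProductSpace

namespace Crest.Agent.N76.II.L0

open Crest.Agent.N76.Red (V)
open Crest.Agent.N76.G

variable {d : ℕ}

theorem Qf_pt_ge {K l : ℝ} (hK : 1 ≤ K) {z u : V d × ℝ} (hz : dist z u ≤ K) {β : Ph d}
    (hβ : l * K ≤ ‖pos u.2 β - u.1‖) :
    l - 9 ≤ Real.pi * Qf 1 z.2 K u.2 ((z.1, 0) - β) := by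
  have hQ := Qf_nonneg 1 z.2 K u.2 ((z.1, 0) - β)
  have hpi := Real.pi_gt_three
  have hK0 : 0 < K := by linarith
  rcases le_or_gt l 1 with hl | hl
  · nlinarith
  rw [Prod.dist_eq, max_le_iff, dist_eq_norm, Real.dist_eq] at hz
  have h1 := Qf_ge (d := d) one_pos hK (t := z.2) (t' := u.2) (hz.2.trans (by nlinarith))
    ((z.1, 0) - β)
  set Δ : Ph d := (z.1, 0) - β with hΔ
  have e : pos u.2 β - u.1 = (z.1 - u.1) - (pos z.2 Δ + (2 * (z.2 - u.2)) • Δ.2) := by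
    simp only [hΔ, pos, Prod.fst_sub, Prod.snd_sub, zero_sub, smul_neg, mul_sub, sub_smul]
    abel
  have h2 : ‖pos u.2 β - u.1‖ ≤ K + (‖pos z.2 Δ‖ + 2 * K * ‖Δ.2‖) := by
    rw [e]
    refine (norm_sub_le _ _).trans (add_le_add hz.1 ((norm_add_le _ _).trans
      (add_le_add_right ?_ _)))
    rw [norm_smul, Real.norm_eq_abs, abs_mul, abs_two]
    gcongr
    exact hz.2
  set x := ‖pos z.2 Δ‖ / K with hx
  set y := ‖Δ.2‖ with hy
  have hx' : ‖pos z.2 Δ‖ = x * K := by rw [hx, div_mul_cancel₀ _ hK0.ne']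
  have h3 : l - 1 ≤ x + 2 * y := by
    refine le_of_mul_le_mul_right ?_ hK0
    rw [hx'] at h2
    nlinarith
  have h4 : ‖pos z.2 Δ‖ ^ 2 / (8 * K ^ 2) = x ^ 2 / 8 := by
    rw [hx']; field_simp
  rw [h4] at h1
  have h5 : (l - 1) ^ 2 ≤ (x + 2 * y) ^ 2 := by gcongr
  have h6 : (l - 1) ^ 2 / 64 ≤ Qf 1 z.2 K u.2 Δ := by nlinarith [sq_nonneg (2 * x - y)]
  nlinarith [sq_nonneg (l - 17)]

theorem pre_sq_le {K : ℝ} (hK : 0 < K) (s s' : ℝ) : pre d 1 s K s' ^ 2 ≤ (2 / K) ^ d := by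
  have hσ := sig_pos (a' := K) one_pos s s'
  have h1 : 4 * 1 ^ 2 * K ^ 2 / sig 1 s K s' ≤ (2 / K) ^ 2 := by
    rw [div_pow, div_le_div_iff₀ hσ (by positivity)]
    unfold sig
    nlinarith [sq_nonneg (s - s'), sq_nonneg K]
  unfold pre
  rw [← Real.rpow_natCast, ← Real.rpow_mul (by positivity)]
  refine (Real.rpow_le_rpow (by positivity) h1 (by positivity)).trans (le_of_eq ?_)
  rw [← Real.rpow_natCast, ← Real.rpow_mul (by positivity), ← Real.rpow_natCast]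
  congr 1
  push_cast
  ring

theorem inner_pt_sq_le {K l : ℝ} (hK : 1 ≤ K) {z u : V d × ℝ} (hz : dist z u ≤ K) {β : Ph d}
    (hβ : l * K ≤ ‖pos u.2 β - u.1‖) :
    ‖inner ℂ (pt z) (gam K u.2 β)‖ ^ 2 ≤ (2 / K) ^ d * Real.exp (9 - l) := by
  have hK0 : 0 < K := by linarith
  rw [pt, norm_inner_gam one_pos hK0, mul_pow, ← Real.exp_nat_mul]
  refine mul_le_mul (pre_sq_le hK0 _ _) (Real.exp_le_exp.2 ?_) (Real.exp_pos _).le (by positivity)
  have h1 := Qf_pt_ge hK hz hβ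
  have h2 := mul_nonneg Real.pi_pos.le (Qf_nonneg 1 z.2 K u.2 ((z.1, 0) - β))
  push_cast
  linarith

theorem norm_integral_sq_le {α : Type*} [MeasurableSpace α] {μ : Measure α} {f g : α → ℂ}
    (hf : MemLp f 2 μ) {κ v : ℝ} (hκ : 0 ≤ κ) (hv : 0 ≤ v) (hμ : μ univ ≤ ENNReal.ofReal v)
    (hg : ∀ᵐ x ∂μ, ‖g x‖ ^ 2 ≤ κ) :
    ‖∫ x, g x * f x ∂μ‖ ^ 2 ≤ κ * v * ∫ x, ‖f x‖ ^ 2 ∂μ := by
  have h0 : 0 ≤ ∫ x, ‖f x‖ ^ 2 ∂μ := integral_nonneg fun x => by positivity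
  rw [← ENNReal.ofReal_le_ofReal_iff (by positivity), ENNReal.ofReal_pow (norm_nonneg _),
    ofReal_norm]
  calc ‖∫ x, g x * f x ∂μ‖ₑ ^ 2 ≤ (∫⁻ x, ENNReal.ofReal (Real.sqrt κ) * ‖f x‖ₑ ∂μ) ^ 2 := by
        gcongr
        refine (enorm_integral_le_lintegral_enorm _).trans (lintegral_mono_ae ?_)
        filter_upwards [hg] with x hx
        rw [enorm_mul, ← ofReal_norm (g x)]
        gcongr
        exact Real.le_sqrt_of_sq_le hx
    _ ≤ (∫⁻ _, ENNReal.ofReal (Real.sqrt κ) ^ 2 ∂μ) * ∫⁻ x, ‖f x‖ₑ ^ 2 ∂μ :=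
        lintegral_mul_sq_le aemeasurable_const hf.1.enorm
    _ ≤ _ := by
        rw [lintegral_const, lintegral_enorm_sq_eq hf, ← ENNReal.ofReal_pow (Real.sqrt_nonneg _),
          Real.sq_sqrt hκ, ENNReal.ofReal_mul (by positivity), ENNReal.ofReal_mul hκ]
        gcongr

/-- one point, one piece -/
theorem inner_piece_le {K l v : ℝ} (hK : 1 ≤ K) (hl : 0 ≤ l) (hv : 0 ≤ v) {z u : V d × ℝ}
    (hz : dist z u ≤ K) {A : Set (Ph d)} (hA : MeasurableSet A) {Z : Set (V d)}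
    (hZ : MeasurableSet Z) (hvol : volume Z ≤ ENNReal.ofReal v)
    (hAZ : A ⊆ tube u Z ((l + 1) * K)) (hAl : ∀ β ∈ A, l * K ≤ ‖pos u.2 β - u.1‖) (H : L2 d) :
    ‖inner ℂ (pt z) (loc K u.2 A H)‖ ^ 2 ≤
      Real.exp (9 - l) * (2 * (l + 1)) ^ d * om d * v * ∫ β in A, ‖co K u.2 H β‖ ^ 2 := by
  have hK0 : 0 < K := by linarith
  have hom := om_nonneg d
  rw [inner_loc hK0 _ hA]
  have h := norm_integral_sq_le (μ := volume.restrict A) ((memLp_co hK0 u.2 H).restrict A)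
    (g := fun β => inner ℂ (pt z) (gam K u.2 β)) (κ := (2 / K) ^ d * Real.exp (9 - l))
    (v := ((l + 1) * K) ^ d * om d * v) (by positivity) (by positivity)
    (by
      rw [Measure.restrict_apply_univ]
      refine (measure_mono hAZ).trans ?_
      rw [volume_tube u hZ (by positivity),
        ENNReal.ofReal_mul (p := ((l + 1) * K) ^ d * om d) (by positivity)]
      gcongr)
    ((ae_restrict_iff' hA).2 (Filter.Eventually.of_forall fun β hβ =>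
      inner_pt_sq_le hK hz (hAl β hβ)))
  refine h.trans (le_of_eq ?_)
  congr 1
  have : (2 * (l + 1)) ^ d = (2 / K) ^ d * ((l + 1) * K) ^ d := by
    rw [← mul_pow]; congr 1; field_simp
  rw [this]
  ring

/-- one cluster, one piece -/
theorem En_piece_le {ι : Type*} (Y : Finset ι) (p : ι → V d × ℝ) (w : ι → ℝ)
    (hw : ∀ z ∈ Y, 0 ≤ w z) {K l v N D : ℝ} (hK : 1 ≤ K) (hl : 0 ≤ l) (hv : 0 ≤ v) (hD0 : 0 ≤ D)
    {u : V d × ℝ} (hz : ∀ z ∈ Y, dist (p z) u ≤ K) (hN : ∑ z ∈ Y, w z ≤ N)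
    (hD : ∀ H : L2 d, En Y p w (fun _ => H) ≤ D * ‖H‖ ^ 2)
    {A : Set (Ph d)} (hA : MeasurableSet A) {Z : Set (V d)}
    (hZ : MeasurableSet Z) (hvol : volume Z ≤ ENNReal.ofReal v)
    (hAZ : A ⊆ tube u Z ((l + 1) * K)) (hAl : ∀ β ∈ A, l * K ≤ ‖pos u.2 β - u.1‖) (H : L2 d) :
    En Y p w (fun _ => loc K u.2 A H) ≤
      min D (N * (Real.exp (9 - l) * (2 * (l + 1)) ^ d * om d * v)) *
        ∫ β in tube u Z ((l + 1) * K), ‖co K u.2 H β‖ ^ 2 := by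
  have hK0 : 0 < K := by linarith
  have hom := om_nonneg d
  have hN0 : 0 ≤ N := (Finset.sum_nonneg hw).trans hN
  have h0 : 0 ≤ ∫ β in A, ‖co K u.2 H β‖ ^ 2 := integral_nonneg fun β => by positivity
  have h1 : ∫ β in A, ‖co K u.2 H β‖ ^ 2 ≤ ∫ β in tube u Z ((l + 1) * K), ‖co K u.2 H β‖ ^ 2 :=
    setIntegral_mono_set (Iso.integrable_co_sq hK0 _ _).integrableOn
      (Filter.Eventually.of_forall fun β => by positivity) hAZ.eventuallyLE
  refine le_trans ?_ (mul_le_mul_of_nonneg_left h1 (le_min hD0 (by positivity)))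
  rw [min_mul_of_nonneg _ _ h0]
  refine le_min ((hD _).trans (mul_le_mul_of_nonneg_left (norm_loc_sq_le hK0 _ hA H) hD0)) ?_
  rw [mul_assoc N]
  refine le_trans ?_ (mul_le_mul_of_nonneg_right hN (by positivity))
  rw [Finset.sum_mul]
  exact Finset.sum_le_sum fun z hz' => mul_le_mul_of_nonneg_left
    (inner_piece_le hK hl hv (hz z hz') hA hZ hvol hAZ hAl H) (hw z hz')

theorem loc_eq_sum {κ : Type*} {K : ℝ} (hK : 0 < K) (s : ℝ) (I : Finset κ) (N : Set (Ph d))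
    (idx : Ph d → κ) (hI : ∀ β ∈ N, idx β ∈ I)
    (hm : ∀ i ∈ I, MeasurableSet {β | β ∈ N ∧ idx β = i}) (H : L2 d) :
    loc K s N H = ∑ i ∈ I, loc K s {β | β ∈ N ∧ idx β = i} H := by
  unfold loc
  rw [← syn_sum hK s I fun i hi => memLp_indicator_co hK s (hm i hi) H]
  congr 1
  funext β
  rw [Finset.sum_apply]
  by_cases hβ : β ∈ N
  · rw [Finset.sum_eq_single (idx β)]
    · rw [indicator_of_mem hβ, indicator_of_mem (by exact ⟨hβ, rfl⟩)]
    · intro i _ hi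
      exact indicator_of_notMem (fun h => hi h.2.symm) _
    · intro h
      exact absurd (hI β hβ) h
  · rw [indicator_of_notMem hβ]
    exact (Finset.sum_eq_zero fun i _ => indicator_of_notMem (fun h => hβ h.1) _).symm

theorem En_sum_le {ι κ : Type*} (Y : Finset ι) (p : ι → V d × ℝ) (w : ι → ℝ)
    (hw : ∀ z ∈ Y, 0 ≤ w z) (I : Finset κ) (lam : κ → ℝ) (hlam : ∀ i ∈ I, 0 < lam i) {L : ℝ}
    (hL : ∑ i ∈ I, 1 / lam i ≤ L) (H : κ → L2 d) :
    En Y p w (fun _ => ∑ i ∈ I, H i) ≤ L * ∑ i ∈ I, lam i * En Y p w (fun _ => H i) := by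
  unfold En
  simp only [Finset.mul_sum]
  rw [Finset.sum_comm]
  refine Finset.sum_le_sum fun z hz => ?_
  have h1 : ‖inner ℂ (pt (p z)) (∑ i ∈ I, H i)‖ ^ 2 ≤
      L * ∑ i ∈ I, lam i * ‖inner ℂ (pt (p z)) (H i)‖ ^ 2 := by
    rw [inner_sum]
    calc ‖∑ i ∈ I, inner ℂ (pt (p z)) (H i)‖ ^ 2 ≤ (∑ i ∈ I, ‖inner ℂ (pt (p z)) (H i)‖) ^ 2 := by
          gcongr; exact norm_sum_le _ _
      _ ≤ (∑ i ∈ I, 1 / lam i) * ∑ i ∈ I, lam i * ‖inner ℂ (pt (p z)) (H i)‖ ^ 2 :=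
          Finset.sum_sq_le_sum_mul_sum_of_sq_le_mul I (fun i hi => (one_div_pos.2 (hlam i hi)).le)
            (fun i hi => mul_nonneg (hlam i hi).le (by positivity))
            (fun i hi => le_of_eq (by have := (hlam i hi).ne'; field_simp))
      _ ≤ _ := mul_le_mul_of_nonneg_right hL
          (Finset.sum_nonneg fun i hi => mul_nonneg (hlam i hi).le (by positivity))
  refine (mul_le_mul_of_nonneg_left h1 (hw z hz)).trans (le_of_eq ?_)
  simp only [Finset.mul_sum]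
  exact Finset.sum_congr rfl fun i _ => by ring

theorem sum_inv_sq_le (n : ℕ) : ∑ i ∈ Finset.range (n + 1), 1 / ((i : ℝ) + 1) ^ 2 ≤ 2 := by
  have : ∑ i ∈ Finset.range (n + 1), 1 / ((i : ℝ) + 1) ^ 2 ≤ 2 - 1 / ((n : ℝ) + 1) := by
    induction n with
    | zero => norm_num
    | succ n ih =>
      rw [Finset.sum_range_succ]
      have h0 : (0 : ℝ) ≤ n := Nat.cast_nonneg n
      have : 1 / (((n + 1 : ℕ) : ℝ) + 1) ^ 2 ≤ 1 / ((n : ℝ) + 1) - 1 / (((n + 1 : ℕ) : ℝ) + 1) := by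
        push_cast
        rw [div_sub_div _ _ (by positivity) (by positivity), div_le_div_iff₀ (by positivity)
          (by positivity)]
        nlinarith
      linarith
  have h2 : 0 ≤ 1 / ((n : ℝ) + 1) := by positivity
  linarith

/-- the near part of one cluster -/
theorem En_near_le {ι : Type*} (Y : Finset ι) (p : ι → V d × ℝ) (w : ι → ℝ)
    (hw : ∀ z ∈ Y, 0 ≤ w z) {K N D b : ℝ} (hK : 1 ≤ K) (hD0 : 0 ≤ D)
    {u : V d × ℝ} (hz : ∀ z ∈ Y, dist (p z) u ≤ K) (hN : ∑ z ∈ Y, w z ≤ N)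
    (hD : ∀ H : L2 d, En Y p w (fun _ => H) ≤ D * ‖H‖ ^ 2)
    {Φ : Set (V d)} (hΦ : MeasurableSet Φ) {lev : V d → ℕ} (hlev : Measurable lev) {M : ℕ}
    (hM : ∀ ζ ∈ Φ, lev ζ ≤ M) (v : ℕ → ℝ) (hv : ∀ m, 0 ≤ v m)
    (hvol : ∀ m, volume (Φ ∩ lev ⁻¹' {m}) ≤ ENNReal.ofReal (v m)) (H : L2 d) :
    En Y p w (fun _ => loc K u.2 (tube u Φ (b * K)) H) ≤
      4 * ∑ i ∈ Finset.range (M + 1) ×ˢ Finset.range (⌊b⌋₊ + 1),
        ((i.1 : ℝ) + 1) ^ 2 * ((i.2 : ℝ) + 1) ^ 2 *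
        (min D (N * (Real.exp (9 - i.2) * (2 * ((i.2 : ℝ) + 1)) ^ d * om d * v i.1)) *
        ∫ β in tube u (Φ ∩ lev ⁻¹' {i.1}) (((i.2 : ℝ) + 1) * K), ‖co K u.2 H β‖ ^ 2) := by
  have hK0 : 0 < K := by linarith
  set idx : Ph d → ℕ × ℕ := fun β => (lev β.2, ⌊‖pos u.2 β - u.1‖ / K⌋₊) with hidx
  have hmi : Measurable idx := (hlev.comp measurable_snd).prodMk
    (Nat.measurable_floor.comp
      (((continuous_pos u.2).sub continuous_const).norm.div_const K).measurable)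
  have hm : ∀ i : ℕ × ℕ, MeasurableSet {β | β ∈ tube u Φ (b * K) ∧ idx β = i} := fun i =>
    (measurableSet_tube u hΦ _).inter (hmi (measurableSet_singleton i))
  rw [loc_eq_sum hK0 u.2 (Finset.range (M + 1) ×ˢ Finset.range (⌊b⌋₊ + 1)) _ idx
    (fun β hβ => Finset.mem_product.2 ⟨Finset.mem_range.2 (Nat.lt_succ_of_le (hM _ hβ.1)),
      Finset.mem_range.2 (Nat.lt_succ_of_le (Nat.floor_le_floor ((div_le_iff₀ hK0).2 hβ.2)))⟩)
    (fun i _ => hm i)]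
  refine (En_sum_le Y p w hw _ (fun i : ℕ × ℕ => ((i.1 : ℝ) + 1) ^ 2 * ((i.2 : ℝ) + 1) ^ 2)
    (fun i _ => by positivity) (L := 4) ?_ _).trans ?_
  · rw [Finset.sum_product' (f := fun (m l : ℕ) => 1 / (((m : ℝ) + 1) ^ 2 * ((l : ℝ) + 1) ^ 2))]
    simp only [← one_div_mul_one_div]
    rw [← Finset.sum_mul_sum]
    have h1 := sum_inv_sq_le M
    have h2 := sum_inv_sq_le ⌊b⌋₊
    have h3 : 0 ≤ ∑ i ∈ Finset.range (⌊b⌋₊ + 1), 1 / ((i : ℝ) + 1) ^ 2 := by positivity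
    nlinarith
  · refine mul_le_mul_of_nonneg_left (Finset.sum_le_sum fun i _ =>
      mul_le_mul_of_nonneg_left ?_ (by positivity)) (by norm_num)
    refine En_piece_le Y p w hw hK (Nat.cast_nonneg _) (hv _) hD0 hz hN hD (hm i)
      (hΦ.inter (hlev (measurableSet_singleton _))) (hvol _) (fun β hβ => ?_) (fun β hβ => ?_) H
    · obtain ⟨h1, rfl⟩ := hβ
      refine ⟨⟨h1.1, rfl⟩, (div_le_iff₀ hK0).1 (Nat.lt_floor_add_one _).le⟩
    · obtain ⟨h1, rfl⟩ := hβ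
      exact (le_div_iff₀ hK0).1 (Nat.floor_le (by positivity))

/-- splitting off the far lines -/
theorem inner_split {K b Ef : ℝ} (hK : 1 ≤ K) {z u : V d × ℝ} (hz : dist z u ≤ K)
    {Φ : Set (V d)} (hΦ : MeasurableSet Φ) (H : L2 d)
    (hE : ∫ β in {β : Ph d | ‖pos u.2 β - u.1‖ ≤ b * K ∧ β.2 ∉ Φ}, ‖co K u.2 H β‖ ^ 2 ≤ Ef) :
    ‖inner ℂ (pt z) H‖ ^ 2 ≤ 3 * ‖inner ℂ (pt z) (loc K u.2 (tube u Φ (b * K)) H)‖ ^ 2 +
      3 * (Ef + 2 ^ d * Real.exp (9 - b) * ‖H‖ ^ 2) := by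
  have hK0 : 0 < K := by linarith
  set A₁ := tube u Φ (b * K) with hA₁
  set A₂ := {β : Ph d | ‖pos u.2 β - u.1‖ ≤ b * K ∧ β.2 ∉ Φ} with hA₂
  set A₃ := {β : Ph d | ‖pos u.2 β - u.1‖ ≤ b * K}ᶜ with hA₃
  have m₁ : MeasurableSet A₁ := measurableSet_tube u hΦ _
  have m₂ : MeasurableSet A₂ := (measurableSet_near u _).inter (measurable_snd hΦ).compl
  have m₃ : MeasurableSet A₃ := (measurableSet_near u _).compl
  have e : H = loc K u.2 A₁ H + loc K u.2 A₂ H + loc K u.2 A₃ H := by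
    rw [← loc_union hK0 _ m₁ m₂ (disjoint_left.2 fun β h1 h2 => h2.2 h1.1),
      ← loc_union hK0 _ (m₁.union m₂) m₃
        (disjoint_left.2 fun β h1 h2 => h2 (h1.elim (fun h => h.2) fun h => h.1))]
    have : A₁ ∪ A₂ ∪ A₃ = univ := by
      refine eq_univ_of_forall fun β => ?_
      by_cases h1 : ‖pos u.2 β - u.1‖ ≤ b * K
      · by_cases h2 : β.2 ∈ Φ
        · exact Or.inl (Or.inl ⟨h2, h1⟩)
        · exact Or.inl (Or.inr ⟨h1, h2⟩)
      · exact Or.inr h1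
    rw [this, loc_univ hK0]
  have h2 : ‖inner ℂ (pt z) (loc K u.2 A₂ H)‖ ^ 2 ≤ Ef := by
    refine le_trans ?_ ((norm_loc_sq_le hK0 _ m₂ H).trans hE)
    gcongr
    refine (norm_inner_le_norm _ _).trans (le_of_eq ?_)
    rw [pt, norm_gam one_pos, one_mul]
  have h3 : ‖inner ℂ (pt z) (loc K u.2 A₃ H)‖ ^ 2 ≤ 2 ^ d * Real.exp (9 - b) * ‖H‖ ^ 2 := by
    have h := norm_co_syn_far one_pos hK0 z.2 u.2 (memLp_indicator_co hK0 u.2 m₃ H) (z.1, 0)
      (s := (b - 9) / Real.pi) (fun β hβ => by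
        have h4 : β ∈ A₃ := by
          by_contra h5
          exact hβ (indicator_of_notMem h5 _)
        rw [div_le_iff₀ Real.pi_pos, mul_comm]
        exact Qf_pt_ge hK hz (le_of_not_ge h4))
    refine h.trans ?_
    have e1 : -Real.pi * ((b - 9) / Real.pi) = 9 - b := by
      have := Real.pi_pos.ne'
      field_simp
      ring
    rw [e1, ← integral_co_sq hK0 u.2 H]
    refine mul_le_mul_of_nonneg_left ?_ (by positivity)
    refine integral_mono_of_nonneg (Filter.Eventually.of_forall fun β => by positivity)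
      (Iso.integrable_co_sq hK0 _ _) (Filter.Eventually.of_forall fun β => ?_)
    have := norm_indicator_le_norm_self (s := A₃) (co K u.2 H) β
    simp only
    gcongr
  have h4 : ‖inner ℂ (pt z) H‖ ≤ ‖inner ℂ (pt z) (loc K u.2 A₁ H)‖ +
      ‖inner ℂ (pt z) (loc K u.2 A₂ H)‖ + ‖inner ℂ (pt z) (loc K u.2 A₃ H)‖ := by
    conv_lhs => rw [e]
    rw [inner_add_right, inner_add_right]
    exact norm_add₃_le
  set x := ‖inner ℂ (pt z) (loc K u.2 A₁ H)‖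
  set y := ‖inner ℂ (pt z) (loc K u.2 A₂ H)‖
  set y' := ‖inner ℂ (pt z) (loc K u.2 A₃ H)‖
  have h5 : ‖inner ℂ (pt z) H‖ ^ 2 ≤ (x + y + y') ^ 2 := by gcongr
  nlinarith [sq_nonneg (x - y), sq_nonneg (x - y'), sq_nonneg (y - y')]

end Crest.Agent.N76.II.L0
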