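import Crest.Agent.N76.II.L0.Bes
import Crest.Agent.N76.II.L0.Piece

/-! # Row 76, leaf L0: the energy bound with explicit sums (helper66). -/

set_option autoImplicit false

open MeasureTheory Set Metric
open scoped ENNReal RealInnerProductSpace

namespace Crest.Agent.N76.II.L0

open Crest.Agent.N76.Red (V)
open Crest.Agent.N76.G

variable {d : ℕ}

theorem continuous_clow {ι : Type*} (𝒞 : Finset ι) (p : ι → V d × ℝ) (K rlo : ℝ) (k : ι) :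
    Continuous (clow 𝒞 p K rlo k) :=
  continuous_finsetSum _ fun _ _ => continuous_gs _ _ _ _

theorem one_le_clow {ι : Type*} {𝒞 : Finset ι} (p : ι → V d × ℝ) {K rlo : ℝ} (hK : 0 < K)
    (hr : 0 ≤ rlo) {k : ι} (hk : k ∈ 𝒞) (ζ : V d) : 1 ≤ clow 𝒞 p K rlo k ζ := by
  classical
  unfold clow
  rw [← gs_self hK (Real.pi / 8) (p k) ζ]
  exact Finset.single_le_sum (f := fun c => Gs K (Real.pi / 8) (p k) (p c) ζ)
    (fun _ _ => gs_nonneg hK _ _ _ _) (Finset.mem_filter.2 ⟨hk, by simpa using hr⟩)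

theorem clow_le_card {ι : Type*} (𝒞 : Finset ι) (p : ι → V d × ℝ) {K : ℝ} (rlo : ℝ) (hK : 0 < K)
    (k : ι) (ζ : V d) : clow 𝒞 p K rlo k ζ ≤ 𝒞.card := by
  unfold clow
  refine (Finset.sum_le_card_nsmul _ _ 1 fun c _ =>
    gs_le_one hK (by have := Real.pi_pos; positivity) _ _ _).trans ?_
  rw [nsmul_eq_mul, mul_one]
  exact_mod_cast Finset.card_filter_le _ _

/-- dyadic level of `clow` -/
noncomputable def lv {ι : Type*} (𝒞 : Finset ι) (p : ι → V d × ℝ) (K rlo : ℝ) (k : ι)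
    (ζ : V d) : ℕ := Nat.log 2 ⌊clow 𝒞 p K rlo k ζ⌋₊

theorem measurable_lv {ι : Type*} (𝒞 : Finset ι) (p : ι → V d × ℝ) (K rlo : ℝ) (k : ι) :
    Measurable (lv 𝒞 p K rlo k) :=
  (measurable_of_countable (Nat.log 2)).comp
    (Nat.measurable_floor.comp (continuous_clow 𝒞 p K rlo k).measurable)

theorem lv_le {ι : Type*} (𝒞 : Finset ι) (p : ι → V d × ℝ) {K : ℝ} (rlo : ℝ) (hK : 0 < K)
    (k : ι) (ζ : V d) : lv 𝒞 p K rlo k ζ ≤ Nat.log 2 𝒞.card :=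
  Nat.log_mono_right (Nat.floor_le_of_le (clow_le_card 𝒞 p rlo hK k ζ))

theorem clow_le_lv {ι : Type*} (𝒞 : Finset ι) (p : ι → V d × ℝ) (K rlo : ℝ)
    (k : ι) (ζ : V d) : clow 𝒞 p K rlo k ζ ≤ 2 * 2 ^ lv 𝒞 p K rlo k ζ := by
  have h1 := Nat.lt_floor_add_one (clow 𝒞 p K rlo k ζ)
  have h2 := Nat.lt_pow_succ_log_self (b := 2) (by norm_num) ⌊clow 𝒞 p K rlo k ζ⌋₊
  have h3 : ((⌊clow 𝒞 p K rlo k ζ⌋₊ + 1 : ℕ) : ℝ) ≤ ((2 ^ (lv 𝒞 p K rlo k ζ + 1) : ℕ) : ℝ) :=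
    Nat.cast_le.2 h2
  push_cast at h3
  rw [pow_succ'] at h3
  linarith

theorem lv_le_clow {ι : Type*} {𝒞 : Finset ι} (p : ι → V d × ℝ) {K rlo : ℝ} (hK : 0 < K)
    (hr : 0 ≤ rlo) {k : ι} (hk : k ∈ 𝒞) (ζ : V d) :
    2 ^ lv 𝒞 p K rlo k ζ ≤ clow 𝒞 p K rlo k ζ := by
  have h0 := one_le_clow p hK hr hk ζ
  have h1 : ⌊clow 𝒞 p K rlo k ζ⌋₊ ≠ 0 := (Nat.floor_pos.2 h0).ne'
  have h2 : ((2 ^ lv 𝒞 p K rlo k ζ : ℕ) : ℝ) ≤ (⌊clow 𝒞 p K rlo k ζ⌋₊ : ℝ) :=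
    Nat.cast_le.2 (Nat.pow_log_le_self 2 h1)
  push_cast at h2
  exact h2.trans (Nat.floor_le (by linarith))

theorem integral_lw {c : Ph d → ℂ} (hc : MemLp c 2 volume) (Λ : Finset (V d))
    {W : V d → V d × ℝ → ℝ} {Mx r₀ K : ℝ} (hW : ∀ ζ ∈ Λ, Nice (W ζ) Mx r₀) (hK : 0 ≤ K)
    {A B : ℝ} (hAB : A ≤ B) :
    ∫ β, lw Λ K W A B β * ‖c β‖ ^ 2 =
      ∑ ζ ∈ Λ, ∫ β : Ph d, Real.exp (-K * ‖β.2 - ζ‖) * xray (W ζ) A B β * ‖c β‖ ^ 2 := by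
  rw [← integral_finsetSum _ fun ζ hζ => integrable_xray hc (hW ζ hζ) hK ζ hAB]
  simp only [lw, Finset.sum_mul]

/-- the Bessel sum over tubes -/
theorem bes_tube {C : ℝ} (hC : 0 ≤ C) (hLB : LBC d C) {ι : Type} {𝒞 : Finset ι}
    {p : ι → V d × ℝ} {K rlo a C₂ r₀ t μ ρ : ℝ} {Λ : Finset (V d)} {J : V d → ℕ}
    {js : V d → ι → ℕ} {Ω : V d → ℕ → V d × ℝ → ℝ}
    (hSD : ∀ ζ ∈ Λ, SD 𝒞 p K rlo a C₂ r₀ ζ (J ζ) (js ζ) (Ω ζ))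
    (hΛ : ∀ x : V d, ‖x‖ ≤ 3 → ∃ ζ ∈ Λ, ‖x - ζ‖ ≤ 1 / K)
    (hK : 0 < K) (hKa : K ≤ a) (hr : K * a ≤ rlo) (hC₂ : 0 ≤ C₂) (hμ : 0 ≤ μ) (hρ : 0 ≤ ρ)
    (hρ' : K * (ρ * K) ≤ rlo) (ht : ∀ k ∈ 𝒞, t ≤ (p k).2 ∧ (p k).2 ≤ t + a ^ 2)
    {c : Ph d → ℂ} (hc : MemLp c 2 volume) (S : Finset ι) (hS : S ⊆ 𝒞) (Z : ι → Set (V d))
    (hZ : ∀ k ∈ S, MeasurableSet (Z k))
    (hcl : ∀ k ∈ S, ∀ ζ' ∈ Z k, ‖ζ'‖ ≤ 3 ∧ clow 𝒞 p K rlo k ζ' ≤ μ) :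
    ∑ k ∈ S, ∫ β in tube (p k) (Z k) (ρ * K), ‖co K (p k).2 (syn a t c) β‖ ^ 2 ≤
      ρ ^ d * om d ^ 2 * (C * (μ + Real.exp Real.pi * C₂) * Real.exp 5) *
        ∫ β, lw Λ K (fun ζ => WW rlo (J ζ) (Ω ζ)) (t - a ^ 2 / 2) (t + 3 * a ^ 2 / 2) β *
          ‖c β‖ ^ 2 := by
  classical
  have ha : 0 < a := by linarith
  have ha2 : 0 < a ^ 2 := by positivity
  have hr0 : 0 < rlo := lt_of_lt_of_le (by positivity) hr
  have hW : ∀ ζ ∈ Λ, Nice (WW rlo (J ζ) (Ω ζ)) (2 / rlo) r₀ := fun ζ hζ =>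
    nice_WW hr0 _ (hSD ζ hζ).2.2.2.1
  have hAB : t - a ^ 2 / 2 ≤ t + 3 * a ^ 2 / 2 := by linarith
  set I : V d → ℝ := fun ζ => ∫ β : Ph d, Real.exp (-K * ‖β.2 - ζ‖) *
    xray (WW rlo (J ζ) (Ω ζ)) (t - a ^ 2 / 2) (t + 3 * a ^ 2 / 2) β * ‖c β‖ ^ 2 with hI
  have hI0 : ∀ ζ ∈ Λ, 0 ≤ I ζ := fun ζ hζ => integral_nonneg fun β =>
    mul_nonneg (mul_nonneg (Real.exp_pos _).le (xray_nonneg' (hW ζ hζ) hAB β)) (by positivity)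
  set E := C * (μ + Real.exp Real.pi * C₂) * Real.exp 5 with hE
  have hE0 : 0 ≤ E := by positivity
  have h := shear_sum S p (fun k β => ‖co K (p k).2 (syn a t c) β‖ ^ 2)
    (fun k _ => Iso.integrable_co_sq hK _ _) Z hZ (ρ := ρ * K) (δ := 1 / K) (by positivity)
    (by positivity) Λ (fun ζ => E * I ζ) (fun x hx ζ' => by
      rcases (S.filter fun k => ζ' ∈ Z k).eq_empty_or_nonempty with h0 | ⟨k, hk⟩
      · rw [h0, Finset.sum_empty]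
        exact Finset.sum_nonneg fun ζ hζ => mul_nonneg hE0 (hI0 ζ (Finset.mem_filter.1 hζ).1)
      · obtain ⟨ζ, hζ, hζ'⟩ := hΛ ζ' (hcl k (Finset.mem_filter.1 hk).1 ζ' (Finset.mem_filter.1 hk).2).1
        refine (bes_dir hC hLB (hSD ζ hζ) hK hKa hr hC₂ hμ hζ'
          ((mul_le_mul_of_nonneg_left hx hK.le).trans hρ') ht hc _
          (fun k' hk' => hS (Finset.mem_filter.1 hk').1)
          (fun k' hk' => (hcl k' (Finset.mem_filter.1 hk').1 ζ' (Finset.mem_filter.1 hk').2).2)).trans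
          ?_
        exact Finset.single_le_sum (f := fun ζ => E * I ζ)
          (fun ζ hζ => mul_nonneg hE0 (hI0 ζ (Finset.mem_filter.1 hζ).1))
          (Finset.mem_filter.2 ⟨hζ, hζ'⟩))
  refine h.trans (le_of_eq ?_)
  rw [integral_lw hc Λ hW hK.le hAB, ← Finset.mul_sum]
  have : ρ ^ d = (ρ * K) ^ d * (1 / K) ^ d := by
    rw [← mul_pow]; congr 1; field_simp
  rw [this]
  ring

open Classical in
/-- the energy bound with explicit sums -/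
theorem energy {C : ℝ} (hC : 0 ≤ C) (hLB : LBC d C) {ι : Type} {𝒞 : Finset ι}
    {p : ι → V d × ℝ} {K rlo a C₂ r₀ t b N : ℝ} {Λ : Finset (V d)} {J : V d → ℕ}
    {js : V d → ι → ℕ} {Ω : V d → ℕ → V d × ℝ → ℝ}
    (hSD : ∀ ζ ∈ Λ, SD 𝒞 p K rlo a C₂ r₀ ζ (J ζ) (js ζ) (Ω ζ))
    (hΛ : ∀ x : V d, ‖x‖ ≤ 3 → ∃ ζ ∈ Λ, ‖x - ζ‖ ≤ 1 / K)
    (hK : 1 ≤ K) (hKa : K ≤ a) (hr : K * a ≤ rlo) (hC₂ : 0 ≤ C₂) (hb : 0 ≤ b) (hN0 : 0 ≤ N)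
    (hb' : K * ((b + 1) * K) ≤ rlo) (ht : ∀ k ∈ 𝒞, t ≤ (p k).2 ∧ (p k).2 ≤ t + a ^ 2)
    (v : ℕ → ℝ) (hv : ∀ m, 0 ≤ v m)
    (hvol : ∀ k ∈ 𝒞, ∀ m : ℕ, volume {ζ : V d | ‖ζ‖ ≤ 3 ∧ 2 ^ m ≤ clow 𝒞 p K rlo k ζ} ≤
      ENNReal.ofReal (v m))
    {w : ι → ℝ} {Y : Finset ι} (hw : ∀ z ∈ Y, 0 ≤ w z) {π : ι → ι} {D : ℝ} (hD0 : 0 ≤ D)
    (hπ : ∀ z ∈ Y, π z ∈ 𝒞 ∧ dist (p z) (p (π z)) ≤ K)
    (hN : ∀ c ∈ 𝒞, ∑ z ∈ Y.filter (fun z => π z = c), w z ≤ N)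
    (hD : ∀ c ∈ 𝒞, ∀ H : L2 d, En (Y.filter fun z => π z = c) p w (fun _ => H) ≤ D * ‖H‖ ^ 2)
    {c : Ph d → ℂ} {φ₀ Ef : ℝ} {Φ : ι → Set (V d)} (hc : MemLp c 2 volume) (hφ : 0 ≤ φ₀)
    (hΦ : ∀ z ∈ Y, MeasurableSet (Φ (π z)) ∧ volume (Φ (π z)) ≤ ENNReal.ofReal φ₀ ∧
      Φ (π z) ⊆ closedBall 0 3 ∧
      ∫ β in {β : Ph d | ‖pos (p (π z)).2 β - (p (π z)).1‖ ≤ b * K ∧ β.2 ∉ Φ (π z)},
        ‖co K (p (π z)).2 (syn a t c) β‖ ^ 2 ≤ Ef) :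
    En Y p w (fun _ => syn a t c) ≤
      12 * om d ^ 2 * (C * (2 + Real.exp Real.pi * C₂) * Real.exp 5) *
        (∑ i ∈ Finset.range (Nat.log 2 𝒞.card + 1) ×ˢ Finset.range (⌊b⌋₊ + 1),
          ((i.1 : ℝ) + 1) ^ 2 * ((i.2 : ℝ) + 1) ^ (d + 2) * 2 ^ i.1 *
          min D (N * (Real.exp (9 - i.2) * (2 * ((i.2 : ℝ) + 1)) ^ d * om d * min φ₀ (v i.1)))) *
        (∫ β, lw Λ K (fun ζ => WW rlo (J ζ) (Ω ζ)) (t - a ^ 2 / 2) (t + 3 * a ^ 2 / 2) β *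
          ‖c β‖ ^ 2)
      + 3 * (∑ z ∈ Y, w z) * (Ef + 2 ^ d * Real.exp (9 - b) * ∫ β, ‖c β‖ ^ 2) := by
  have hK0 : 0 < K := by linarith
  have ha : 0 < a := by linarith
  have ha2 : 0 < a ^ 2 := by positivity
  have hr0 : 0 < rlo := lt_of_lt_of_le (by positivity) hr
  have hom := om_nonneg d
  set H := syn a t c with hH
  set I := ∫ β, lw Λ K (fun ζ => WW rlo (J ζ) (Ω ζ)) (t - a ^ 2 / 2) (t + 3 * a ^ 2 / 2) β *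
    ‖c β‖ ^ 2 with hI
  have hI0 : 0 ≤ I := integral_nonneg fun β => mul_nonneg (Finset.sum_nonneg fun ζ hζ =>
    mul_nonneg (Real.exp_pos _).le (xray_nonneg' (nice_WW hr0 _ (hSD ζ hζ).2.2.2.1)
      (by linarith) β)) (by positivity)
  set S := Y.image π with hS
  have hS𝒞 : S ⊆ 𝒞 := fun k hk => by
    obtain ⟨z, hz, rfl⟩ := Finset.mem_image.1 hk
    exact (hπ z hz).1
  have hΦ' : ∀ k ∈ S, MeasurableSet (Φ k) ∧ volume (Φ k) ≤ ENNReal.ofReal φ₀ ∧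
      Φ k ⊆ closedBall 0 3 := fun k hk => by
    obtain ⟨z, hz, rfl⟩ := Finset.mem_image.1 hk
    exact ⟨(hΦ z hz).1, (hΦ z hz).2.1, (hΦ z hz).2.2.1⟩
  set Nr : ι → L2 d := fun k => loc K (p k).2 (tube (p k) (Φ k) (b * K)) H with hNr
  set II := Finset.range (Nat.log 2 𝒞.card + 1) ×ˢ Finset.range (⌊b⌋₊ + 1) with hII
  set κ : ℕ × ℕ → ℝ := fun i =>
    min D (N * (Real.exp (9 - i.2) * (2 * ((i.2 : ℝ) + 1)) ^ d * om d * min φ₀ (v i.1))) with hκ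
  have hκ0 : ∀ i, 0 ≤ κ i := fun i => le_min hD0 (by
    have := le_min hφ (hv i.1); positivity)
  set Z : ℕ → ι → Set (V d) := fun m k => Φ k ∩ lv 𝒞 p K rlo k ⁻¹' {m} with hZ
  set E := C * (2 + Real.exp Real.pi * C₂) * Real.exp 5 with hE
  have h1 : En Y p w (fun _ => H) ≤ 3 * En Y p w (fun z => Nr (π z)) +
      3 * (∑ z ∈ Y, w z) * (Ef + 2 ^ d * Real.exp (9 - b) * ∫ β, ‖c β‖ ^ 2) := by
    unfold En
    rw [Finset.mul_sum, Finset.mul_sum, Finset.sum_mul, ← Finset.sum_add_distrib]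
    refine Finset.sum_le_sum fun z hz => ?_
    have h2 := inner_split hK (hπ z hz).2 (hΦ z hz).1 H (hΦ z hz).2.2.2
    have h3 : 2 ^ d * Real.exp (9 - b) * ‖H‖ ^ 2 ≤ 2 ^ d * Real.exp (9 - b) * ∫ β, ‖c β‖ ^ 2 :=
      mul_le_mul_of_nonneg_left (norm_syn_sq_le ha t hc) (by positivity)
    have h4 := mul_le_mul_of_nonneg_left
      (h2.trans (add_le_add_right (mul_le_mul_of_nonneg_left (add_le_add_right h3 Ef)
        (by norm_num : (0 : ℝ) ≤ 3)) _)) (hw z hz)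
    refine h4.trans (le_of_eq ?_)
    simp only [hNr]
    ring
  have h2 : En Y p w (fun z => Nr (π z)) =
      ∑ k ∈ S, En (Y.filter fun z => π z = k) p w (fun _ => Nr k) := by
    unfold En
    rw [← Finset.sum_fiberwise_of_maps_to (g := π) (t := S)
      (fun z hz => Finset.mem_image_of_mem π hz)]
    refine Finset.sum_congr rfl fun k _ => Finset.sum_congr rfl fun z hz => ?_
    simp only [(Finset.mem_filter.1 hz).2]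
  have h3 : ∀ k ∈ S, En (Y.filter fun z => π z = k) p w (fun _ => Nr k) ≤
      4 * ∑ i ∈ II, ((i.1 : ℝ) + 1) ^ 2 * ((i.2 : ℝ) + 1) ^ 2 * (κ i *
        ∫ β in tube (p k) (Z i.1 k) (((i.2 : ℝ) + 1) * K), ‖co K (p k).2 H β‖ ^ 2) := by
    intro k hk
    refine En_near_le _ p w (fun z hz => hw z (Finset.mem_filter.1 hz).1) hK hD0
      (fun z hz => by
        have := (hπ z (Finset.mem_filter.1 hz).1).2
        rwa [(Finset.mem_filter.1 hz).2] at this)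
      (hN k (hS𝒞 hk)) (hD k (hS𝒞 hk)) (hΦ' k hk).1 (measurable_lv 𝒞 p K rlo k)
      (fun ζ _ => lv_le 𝒞 p rlo hK0 k ζ) (fun m => min φ₀ (v m)) (fun m => le_min hφ (hv m))
      (fun m => ?_) H
    rw [ENNReal.ofReal_min]
    refine le_min ((measure_mono inter_subset_left).trans (hΦ' k hk).2.1)
      ((measure_mono fun ζ hζ => ?_).trans (hvol k (hS𝒞 hk) m))
    obtain ⟨h4, h5⟩ := hζ
    have h6 : lv 𝒞 p K rlo k ζ = m := h5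
    exact ⟨by simpa using (hΦ' k hk).2.2 h4, h6 ▸ lv_le_clow p hK0 hr0.le (hS𝒞 hk) ζ⟩
  have h4 : ∀ i ∈ II, ∑ k ∈ S, ∫ β in tube (p k) (Z i.1 k) (((i.2 : ℝ) + 1) * K),
      ‖co K (p k).2 H β‖ ^ 2 ≤ ((i.2 : ℝ) + 1) ^ d * om d ^ 2 * (2 ^ i.1 * E) * I := by
    intro i hi
    have h5 : (i.2 : ℝ) ≤ b := by
      have := Nat.le_of_lt_succ (Finset.mem_range.1 (Finset.mem_product.1 hi).2)
      exact (Nat.cast_le.2 this).trans (Nat.floor_le hb)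
    refine (bes_tube hC hLB hSD hΛ hK0 hKa hr hC₂ (μ := 2 * 2 ^ i.1) (by positivity)
      (ρ := (i.2 : ℝ) + 1) (by positivity) (le_trans (by gcongr) hb') ht hc S hS𝒞 (Z i.1)
      (fun k hk => (hΦ' k hk).1.inter (measurable_lv 𝒞 p K rlo k (measurableSet_singleton _)))
      (fun k hk ζ hζ => ⟨by simpa using (hΦ' k hk).2.2 hζ.1, ?_⟩)).trans ?_
    · have h6 : lv 𝒞 p K rlo k ζ = i.1 := hζ.2
      exact h6 ▸ clow_le_lv 𝒞 p K rlo k ζ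
    · refine mul_le_mul_of_nonneg_right (mul_le_mul_of_nonneg_left ?_ (by positivity)) hI0
      have h7 : (1 : ℝ) ≤ 2 ^ i.1 := one_le_pow₀ (by norm_num)
      have h8 : 0 ≤ Real.exp Real.pi * C₂ := by positivity
      have h9 : 2 * 2 ^ i.1 + Real.exp Real.pi * C₂ ≤ 2 ^ i.1 * (2 + Real.exp Real.pi * C₂) := by
        nlinarith
      calc C * (2 * 2 ^ i.1 + Real.exp Real.pi * C₂) * Real.exp 5
          ≤ C * (2 ^ i.1 * (2 + Real.exp Real.pi * C₂)) * Real.exp 5 := by gcongr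
        _ = _ := by rw [hE]; ring
  refine h1.trans (add_le_add_left ?_ _)
  rw [h2]
  calc 3 * ∑ k ∈ S, En (Y.filter fun z => π z = k) p w (fun _ => Nr k)
      ≤ 3 * ∑ k ∈ S, 4 * ∑ i ∈ II, ((i.1 : ℝ) + 1) ^ 2 * ((i.2 : ℝ) + 1) ^ 2 * (κ i *
        ∫ β in tube (p k) (Z i.1 k) (((i.2 : ℝ) + 1) * K), ‖co K (p k).2 H β‖ ^ 2) :=
        mul_le_mul_of_nonneg_left (Finset.sum_le_sum h3) (by norm_num)
    _ = 12 * ∑ i ∈ II, ((i.1 : ℝ) + 1) ^ 2 * ((i.2 : ℝ) + 1) ^ 2 * (κ i *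
        ∑ k ∈ S, ∫ β in tube (p k) (Z i.1 k) (((i.2 : ℝ) + 1) * K), ‖co K (p k).2 H β‖ ^ 2) := by
        rw [← Finset.mul_sum, Finset.sum_comm, ← mul_assoc]
        simp only [Finset.mul_sum]
        norm_num
    _ ≤ 12 * ∑ i ∈ II, ((i.1 : ℝ) + 1) ^ 2 * ((i.2 : ℝ) + 1) ^ 2 * (κ i *
        (((i.2 : ℝ) + 1) ^ d * om d ^ 2 * (2 ^ i.1 * E) * I)) := by
        refine mul_le_mul_of_nonneg_left (Finset.sum_le_sum fun i hi => ?_) (by norm_num)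
        exact mul_le_mul_of_nonneg_left (mul_le_mul_of_nonneg_left (h4 i hi) (hκ0 i))
          (by positivity)
    _ = _ := by
        simp only [Finset.mul_sum, Finset.sum_mul]
        exact Finset.sum_congr rfl fun i _ => by ring

end Crest.Agent.N76.II.L0
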