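import Crest.Agent.N76.II.PDefs
import Crest.Agent.N76.G.Tail

/-! # Row 76, leaf L0: the majorant `Gs`, the shear `lin`, volumes (helper66). -/

set_option autoImplicit false

open MeasureTheory Set Metric
open scoped ENNReal RealInnerProductSpace

namespace Crest.Agent.N76.II.L0

open Crest.Agent.N76.Red (V)
open Crest.Agent.N76.G

variable {d : ℕ}

theorem lin_sub (u u' : V d × ℝ) (ζ : V d) :
    lin u ζ - lin u' ζ = (u.1 - u'.1 + (2 * (u.2 - u'.2)) • ζ, 0) := by
  simp only [lin, Prod.mk_sub_mk, sub_self, mul_sub, sub_smul]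
  congr 1
  abel

theorem pos_lin' (s : ℝ) (u : V d × ℝ) (ζ : V d) :
    pos s (lin u ζ) = u.1 + (2 * (u.2 - s)) • ζ := by
  simp only [pos, lin, mul_sub, sub_smul]
  abel

theorem Qf_fst (K s s' : ℝ) (y : V d) :
    Qf K s K s' ((y, 0) : Ph d) = 2 * K ^ 2 * ‖y‖ ^ 2 / sig K s K s' := by
  simp only [Qf, pos, smul_zero, sub_zero, norm_zero]
  ring

theorem gs_shift (K c : ℝ) (u u' : V d × ℝ) (x ζ : V d) :
    Gs K c (u.1 + x, u.2) (u'.1 + x, u'.2) ζ = Gs K c u u' ζ := by
  simp only [Gs, lin_sub, add_sub_add_right_eq_sub]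

theorem gs_nonneg {K : ℝ} (hK : 0 < K) (c : ℝ) (u u' : V d × ℝ) (ζ : V d) : 0 ≤ Gs K c u u' ζ :=
  mul_nonneg (pre_pos hK hK _ _).le (Real.exp_pos _).le

theorem gs_le_one {K c : ℝ} (hK : 0 < K) (hc : 0 ≤ c) (u u' : V d × ℝ) (ζ : V d) :
    Gs K c u u' ζ ≤ 1 := by
  refine mul_le_one₀ (pre_le_one hK hK _ _) (Real.exp_pos _).le (Real.exp_le_one_iff.2 ?_)
  have := mul_nonneg hc (Qf_nonneg K u.2 K u'.2 (lin u ζ - lin u' ζ))
  linarith

theorem gs_self {K : ℝ} (hK : 0 < K) (c : ℝ) (u : V d × ℝ) (ζ : V d) : Gs K c u u ζ = 1 := by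
  simp [Gs, pre_self hK, Qf, pos]

theorem gs_mono {K c c' : ℝ} (hK : 0 < K) (hc : c ≤ c') (u u' : V d × ℝ) (ζ : V d) :
    Gs K c' u u' ζ ≤ Gs K c u u' ζ := by
  refine mul_le_mul_of_nonneg_left (Real.exp_le_exp.2 ?_) (pre_pos hK hK _ _).le
  have := mul_le_mul_of_nonneg_right hc (Qf_nonneg K u.2 K u'.2 (lin u ζ - lin u' ζ))
  linarith

theorem continuous_gs (K c : ℝ) (u u' : V d × ℝ) : Continuous (Gs K c u u') := by
  unfold Gs
  refine continuous_const.mul (Real.continuous_exp.comp (continuous_const.mul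
    ((continuous_Qf K u.2 K u'.2).comp ?_)))
  unfold lin
  fun_prop

theorem gs_dir {K : ℝ} (hK : 0 < K) (u u' : V d × ℝ) {ζ ζ' : V d} (h : ‖ζ' - ζ‖ ≤ 1 / K) :
    Gs K (Real.pi / 2) u u' ζ' ≤ Real.exp Real.pi * Gs K (Real.pi / 4) u u' ζ := by
  unfold Gs
  rw [mul_left_comm, ← Real.exp_add]
  refine mul_le_mul_of_nonneg_left (Real.exp_le_exp.2 ?_) (pre_pos hK hK _ _).le
  rw [lin_sub, lin_sub, Qf_fst, Qf_fst]
  set τ := u.2 - u'.2 with hτ
  set y := u.1 - u'.1 + (2 * τ) • ζ with hy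
  set y' := u.1 - u'.1 + (2 * τ) • ζ' with hy'
  have hσ := sig_pos (a' := K) hK u.2 u'.2
  have hσ2 : 4 * τ ^ 2 ≤ sig K u.2 K u'.2 := by
    unfold sig
    rw [hτ]
    nlinarith [sq_nonneg (K ^ 2 + K ^ 2)]
  have h1 : ‖y‖ ≤ ‖y'‖ + 2 * |τ| / K := by
    have e : y = y' - (2 * τ) • (ζ' - ζ) := by
      rw [hy, hy', smul_sub]; abel
    rw [e]
    refine (norm_sub_le _ _).trans (add_le_add_right ?_ _)
    rw [norm_smul, Real.norm_eq_abs, abs_mul, abs_two, div_eq_mul_one_div (2 * |τ|)]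
    exact mul_le_mul_of_nonneg_left h (by positivity)
  have h2 : K ^ 2 * ‖y‖ ^ 2 ≤ 2 * (K ^ 2 * ‖y'‖ ^ 2) + 8 * τ ^ 2 := by
    have h3 : K * ‖y‖ ≤ K * ‖y'‖ + 2 * |τ| := by
      have := mul_le_mul_of_nonneg_left h1 hK.le
      rwa [mul_add, mul_div_cancel₀ _ hK.ne'] at this
    have h4 : (K * ‖y‖) ^ 2 ≤ (K * ‖y'‖ + 2 * |τ|) ^ 2 := by gcongr
    have h5 := sq_abs τ
    nlinarith [sq_nonneg (K * ‖y'‖ - 2 * |τ|)]
  have h6 : 2 * K ^ 2 * ‖y‖ ^ 2 / sig K u.2 K u'.2 ≤
      2 * (2 * K ^ 2 * ‖y'‖ ^ 2 / sig K u.2 K u'.2) + 4 := by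
    rw [div_le_iff₀ hσ, add_mul, mul_assoc 2 (_ / _), div_mul_cancel₀ _ hσ.ne']
    linarith
  have hpi := Real.pi_pos
  nlinarith

/-- the shear `(x, ζ) ↦` line through `u + (x, 0)` with direction `ζ` -/
noncomputable def shear (u : V d × ℝ) (q : Ph d) : Ph d := lin (u.1 + q.1, u.2) q.2

theorem measurePreserving_shear (u : V d × ℝ) :
    MeasurePreserving (shear u) (volume : Measure (Ph d)) volume := by
  have h1 : MeasurePreserving
      (fun q : V d × V d => (id q.1, (u.1 + (2 * u.2) • q.1) + q.2))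
      ((volume : Measure (V d)).prod volume) ((volume : Measure (V d)).prod volume) :=
    (MeasurePreserving.id volume).skew_product (g := fun ζ x => (u.1 + (2 * u.2) • ζ) + x)
      (by unfold Function.uncurry; fun_prop)
      (Filter.Eventually.of_forall fun ζ => map_add_left_eq_self _ _)
  have h2 := (Measure.measurePreserving_swap.comp h1).comp
    (Measure.measurePreserving_swap (μ := (volume : Measure (V d))) (ν := (volume : Measure (V d))))
  have e : shear u = (Prod.swap ∘ fun q : V d × V d =>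
      (id q.1, (u.1 + (2 * u.2) • q.1) + q.2)) ∘ Prod.swap := by
    funext q
    simp only [shear, lin, Function.comp, Prod.swap, id]
    congr 1
    abel
  rw [e]
  exact h2

theorem pos_shear (u : V d × ℝ) (q : Ph d) : pos u.2 (shear u q) - u.1 = q.1 := by
  simp [shear, pos_lin']

/-- lines with direction in `Z` passing within `ρ` of `u` -/
def tube (u : V d × ℝ) (Z : Set (V d)) (ρ : ℝ) : Set (Ph d) :=
  {β | β.2 ∈ Z ∧ ‖pos u.2 β - u.1‖ ≤ ρ}

theorem measurableSet_near (u : V d × ℝ) (ρ : ℝ) :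
    MeasurableSet {β : Ph d | ‖pos u.2 β - u.1‖ ≤ ρ} :=
  (isClosed_le ((continuous_pos u.2).sub continuous_const).norm continuous_const).measurableSet

theorem measurableSet_tube (u : V d × ℝ) {Z : Set (V d)} (hZ : MeasurableSet Z) (ρ : ℝ) :
    MeasurableSet (tube u Z ρ) :=
  (measurable_snd hZ).inter (measurableSet_near u ρ)

theorem shear_preimage_tube (u : V d × ℝ) (Z : Set (V d)) (ρ : ℝ) :
    shear u ⁻¹' tube u Z ρ = closedBall 0 ρ ×ˢ Z := by
  ext q
  simp only [tube, mem_preimage, mem_ofPred_eq, pos_shear, mem_prod, mem_closedBall, dist_zero_right]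
  exact and_comm

/-- volume of the unit ball -/
noncomputable def om (d : ℕ) : ℝ := (volume : Measure (V d)).real (closedBall 0 1)

theorem om_nonneg (d : ℕ) : 0 ≤ om d := measureReal_nonneg

theorem volume_cb (x : V d) {ρ : ℝ} (hρ : 0 ≤ ρ) :
    volume (closedBall x ρ) = ENNReal.ofReal (ρ ^ d * om d) := by
  rw [Measure.addHaar_closedBall' volume x hρ, ENNReal.ofReal_mul (by positivity), om,
    ofReal_measureReal measure_closedBall_lt_top.ne]
  simp

theorem real_cb (x : V d) {ρ : ℝ} (hρ : 0 ≤ ρ) :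
    (volume : Measure (V d)).real (closedBall x ρ) = ρ ^ d * om d := by
  rw [measureReal_def, volume_cb x hρ, ENNReal.toReal_ofReal]
  exact mul_nonneg (by positivity) (om_nonneg d)

theorem volume_tube (u : V d × ℝ) {Z : Set (V d)} (hZ : MeasurableSet Z) {ρ : ℝ} (hρ : 0 ≤ ρ) :
    volume (tube u Z ρ) = ENNReal.ofReal (ρ ^ d * om d) * volume Z := by
  rw [← (measurePreserving_shear u).measure_preimage (measurableSet_tube u hZ ρ).nullMeasurableSet,
    shear_preimage_tube, Measure.volume_eq_prod, Measure.prod_prod, volume_cb _ hρ]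

open Classical in
/-- sum over centres of integrals over tubes, from a bound for each translate and direction -/
theorem shear_sum {ι : Type*} (S : Finset ι) (p : ι → V d × ℝ) (f : ι → Ph d → ℝ)
    (hf : ∀ k ∈ S, Integrable (f k)) (Z : ι → Set (V d))
    (hZ : ∀ k ∈ S, MeasurableSet (Z k)) {ρ δ : ℝ} (hρ : 0 ≤ ρ) (hδ : 0 ≤ δ) (Λ : Finset (V d))
    (M : V d → ℝ)
    (h : ∀ x : V d, ‖x‖ ≤ ρ → ∀ ζ' : V d,
      ∑ k ∈ S.filter (fun k => ζ' ∈ Z k), f k (lin ((p k).1 + x, (p k).2) ζ') ≤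
        ∑ ζ ∈ Λ.filter (fun ζ => ‖ζ' - ζ‖ ≤ δ), M ζ) :
    ∑ k ∈ S, ∫ β in tube (p k) (Z k) ρ, f k β ≤
      (ρ ^ d * om d) * ((δ ^ d * om d) * ∑ ζ ∈ Λ, M ζ) := by
  set g₁ : V d → ℝ := (closedBall (0 : V d) ρ).indicator fun _ => 1 with hg₁
  set g₂ : V d → ℝ := fun ζ' => ∑ ζ ∈ Λ, (closedBall ζ δ).indicator (fun _ => M ζ) ζ' with hg₂
  have i₁ : Integrable g₁ :=
    (integrableOn_const measure_closedBall_lt_top.ne).integrable_indicator measurableSet_closedBall
  have i₂' : ∀ ζ ∈ Λ, Integrable ((closedBall ζ δ).indicator fun _ : V d => M ζ) := fun ζ _ =>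
    (integrableOn_const measure_closedBall_lt_top.ne).integrable_indicator measurableSet_closedBall
  have i₂ : Integrable g₂ := integrable_finsetSum _ i₂'
  have e₁ : ∫ x, g₁ x = ρ ^ d * om d := by
    rw [hg₁, integral_indicator measurableSet_closedBall, setIntegral_const, real_cb _ hρ]
    simp
  have e₂ : ∫ x, g₂ x = (δ ^ d * om d) * ∑ ζ ∈ Λ, M ζ := by
    rw [hg₂, integral_finsetSum _ i₂', Finset.mul_sum]
    refine Finset.sum_congr rfl fun ζ _ => ?_
    rw [integral_indicator measurableSet_closedBall, setIntegral_const, real_cb _ hδ, smul_eq_mul]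
  have hi : ∀ k ∈ S, Integrable ((tube (p k) (Z k) ρ).indicator (f k)) := fun k hk =>
    (hf k hk).indicator (measurableSet_tube _ (hZ k hk) ρ)
  have hi' : ∀ k ∈ S, Integrable fun q => (tube (p k) (Z k) ρ).indicator (f k) (shear (p k) q) :=
    fun k hk => (measurePreserving_shear (p k)).integrable_comp_of_integrable (hi k hk)
  calc ∑ k ∈ S, ∫ β in tube (p k) (Z k) ρ, f k β
      = ∑ k ∈ S, ∫ q, (tube (p k) (Z k) ρ).indicator (f k) (shear (p k) q) := by
        refine Finset.sum_congr rfl fun k hk => ?_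
        have hm := measurePreserving_shear (p k)
        rw [← integral_indicator (measurableSet_tube _ (hZ k hk) ρ),
          ← integral_map hm.measurable.aemeasurable (by rw [hm.map_eq]; exact (hi k hk).1),
          hm.map_eq]
    _ = ∫ q, ∑ k ∈ S, (tube (p k) (Z k) ρ).indicator (f k) (shear (p k) q) :=
        (integral_finsetSum _ hi').symm
    _ ≤ ∫ q : Ph d, g₁ q.1 * g₂ q.2 := by
        refine integral_mono (integrable_finsetSum _ hi') (i₁.mul_prod i₂) fun q => ?_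
        have hm : ∀ k, shear (p k) q ∈ tube (p k) (Z k) ρ ↔ ‖q.1‖ ≤ ρ ∧ q.2 ∈ Z k := fun k => by
          rw [← mem_preimage, shear_preimage_tube]
          simp
        by_cases hq : ‖q.1‖ ≤ ρ
        · have e1 : g₁ q.1 = 1 := by simp [hg₁, hq]
          have e2 : g₂ q.2 = ∑ ζ ∈ Λ.filter (fun ζ => ‖q.2 - ζ‖ ≤ δ), M ζ := by
            simp only [hg₂, Finset.sum_filter, indicator, mem_closedBall, dist_eq_norm]
          simp only [e1, e2, one_mul]
          refine le_trans (le_of_eq ?_) (h q.1 hq q.2)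
          rw [Finset.sum_filter]
          refine Finset.sum_congr rfl fun k _ => ?_
          simp only [indicator, hm, hq, true_and]
          rfl
        · have e1 : g₁ q.1 = 0 := by simp [hg₁, hq]
          simp only [e1, zero_mul]
          refine le_of_eq (Finset.sum_eq_zero fun k _ => ?_)
          simp [indicator, hm, hq]
    _ = _ := by rw [Measure.volume_eq_prod, integral_prod_mul, e₁, e₂]

end Crest.Agent.N76.II.L0
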