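import Crest.Agent.N76.II.PDefs
import Crest.Agent.N76.Red.Pack

/-! # Row 76, leaf L0: nets of directions, counting of separated centres (helper66). -/

set_option autoImplicit false

open MeasureTheory Set Metric
open scoped ENNReal RealInnerProductSpace

namespace Crest.Agent.N76.II.L0

open Crest.Agent.N76.Red (V)
open Crest.Agent.N76.G

variable {d : ℕ}

theorem sum_pow_exp_le (k : ℕ) {θ : ℝ} (hθ : 0 < θ) :
    ∃ C : ℝ, 1 ≤ C ∧ ∀ s : Finset ℕ, ∑ n ∈ s, ((n : ℝ) + 1) ^ k * Real.exp (-θ * n) ≤ C := by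
  have h1 : Summable fun n : ℕ => ((n : ℝ) + 1) ^ k * Real.exp (-θ * n) := by
    have h := (summable_nat_add_iff 1).2 (Real.summable_pow_mul_exp_neg_nat_mul k hθ)
    refine (h.mul_left (Real.exp θ)).congr fun n => ?_
    push_cast
    rw [mul_left_comm, ← Real.exp_add]
    congr 2
    ring
  refine ⟨max 1 (∑' n : ℕ, ((n : ℝ) + 1) ^ k * Real.exp (-θ * n)), le_max_left _ _, fun s => ?_⟩
  exact (h1.sum_le_tsum s fun n _ => by positivity).trans (le_max_right _ _)

theorem card_sep_le (s : Finset (V d)) (x₀ : V d) {K r : ℝ} (hK : 0 < K) (hr : 0 ≤ r)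
    (hs : ∀ c ∈ s, ‖c - x₀‖ ≤ r) (h : ∀ c ∈ s, ∀ c' ∈ s, c ≠ c' → 1 / K ≤ ‖c - c'‖) :
    (s.card : ℝ) ≤ (2 * (K * r) + 1) ^ d := by
  classical
  have hinj : Function.Injective fun x : V d => K • x := smul_right_injective _ hK.ne'
  rw [← Finset.card_image_of_injective s hinj]
  refine Red.card_le_of_sep _ (K • x₀) (by positivity) ?_ ?_
  · intro c hc
    obtain ⟨c, hc', rfl⟩ := Finset.mem_image.1 hc
    rw [← smul_sub, norm_smul, Real.norm_of_nonneg hK.le]
    exact mul_le_mul_of_nonneg_left (hs c hc') hK.le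
  · intro c hc c' hc' hne
    obtain ⟨c, hc1, rfl⟩ := Finset.mem_image.1 hc
    obtain ⟨c', hc2, rfl⟩ := Finset.mem_image.1 hc'
    have := h c hc1 c' hc2 (fun e => hne (by rw [e]))
    rw [← smul_sub, norm_smul, Real.norm_of_nonneg hK.le]
    rw [div_le_iff₀ hK] at this
    linarith

theorem exists_sep_net {K : ℝ} (hK : 0 < K) :
    ∃ Y : Finset (V d), (∀ y ∈ Y, ‖y‖ ≤ 3) ∧ (∀ c ∈ Y, ∀ c' ∈ Y, c ≠ c' → 1 / K ≤ ‖c - c'‖) ∧
      ∀ x : V d, ‖x‖ ≤ 3 → ∃ y ∈ Y, ‖x - y‖ ≤ 1 / K := by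
  classical
  set P : ℕ → Prop := fun k => ∃ Y : Finset (V d), (∀ y ∈ Y, ‖y‖ ≤ 3) ∧
    (∀ c ∈ Y, ∀ c' ∈ Y, c ≠ c' → 1 / K ≤ ‖c - c'‖) ∧ Y.card = k with hP
  obtain ⟨B, hB⟩ := exists_nat_ge ((2 * (K * 3) + 1) ^ d)
  have hle : ∀ k, P k → k ≤ B := by
    rintro k ⟨Y, h1, h2, rfl⟩
    have := card_sep_le Y 0 hK (by norm_num : (0 : ℝ) ≤ 3) (fun c hc => by simpa using h1 c hc) h2
    exact_mod_cast this.trans hB
  have h0 : P 0 := ⟨∅, by simp, by simp, rfl⟩
  obtain ⟨Y, h1, h2, h3⟩ : P (Nat.findGreatest P B) := Nat.findGreatest_spec (Nat.zero_le B) h0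
  refine ⟨Y, h1, h2, fun x hx => ?_⟩
  by_contra hcon
  push Not at hcon
  have hxY : x ∉ Y := fun hxY => by
    have := hcon x hxY
    have h0 : 0 < 1 / K := by positivity
    simp only [sub_self, norm_zero] at this
    linarith
  have hP' : P (Y.card + 1) := by
    refine ⟨insert x Y, ?_, ?_, Finset.card_insert_of_notMem hxY⟩
    · intro y hy
      rcases Finset.mem_insert.1 hy with rfl | hy
      exacts [hx, h1 y hy]
    · intro c hc c' hc' hcd
      rcases Finset.mem_insert.1 hc with rfl | hc1 <;>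
        rcases Finset.mem_insert.1 hc' with rfl | hc2
      · exact absurd rfl hcd
      · exact (hcon c' hc2).le
      · rw [norm_sub_rev]; exact (hcon c hc1).le
      · exact h2 c hc1 c' hc2 hcd
  have := Nat.le_findGreatest (hle _ hP') hP'
  omega

/-- the net of directions -/
theorem exists_dirnet (d : ℕ) : ∃ C : ℝ, 1 ≤ C ∧ ∀ K : ℝ, 1 ≤ K → ∃ Λ : Finset (V d),
    (∀ ζ ∈ Λ, ‖ζ‖ ≤ 3) ∧ (∀ x : V d, ‖x‖ ≤ 3 → ∃ ζ ∈ Λ, ‖x - ζ‖ ≤ 1 / K) ∧
    (Λ.card : ℝ) ≤ C * K ^ d ∧ ∀ ξ : V d, ∑ ζ ∈ Λ, Real.exp (-K * ‖ξ - ζ‖) ≤ C := by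
  classical
  obtain ⟨C, hC1, hC⟩ := sum_pow_exp_le d one_pos
  refine ⟨7 ^ d * C, one_le_mul_of_one_le_of_one_le (one_le_pow₀ (by norm_num)) hC1,
    fun K hK => ?_⟩
  have hK0 : 0 < K := by linarith
  obtain ⟨Λ, h1, h2, h3⟩ := exists_sep_net (d := d) hK0
  refine ⟨Λ, h1, h3, ?_, fun ξ => ?_⟩
  · have := card_sep_le Λ 0 hK0 (by norm_num : (0 : ℝ) ≤ 3) (fun c hc => by simpa using h1 c hc) h2
    refine this.trans ?_
    calc (2 * (K * 3) + 1) ^ d ≤ (7 * K) ^ d := by
          gcongr; linarith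
      _ = 7 ^ d * 1 * K ^ d := by rw [mul_pow, mul_one]
      _ ≤ _ := by gcongr
  · set n : V d → ℕ := fun ζ => ⌊K * ‖ξ - ζ‖⌋₊ with hn
    calc ∑ ζ ∈ Λ, Real.exp (-K * ‖ξ - ζ‖) ≤ ∑ ζ ∈ Λ, Real.exp (-1 * (n ζ : ℝ)) := by
          refine Finset.sum_le_sum fun ζ _ => Real.exp_le_exp.2 ?_
          have := Nat.floor_le (show 0 ≤ K * ‖ξ - ζ‖ by positivity)
          simp only [hn]
          linarith
      _ = ∑ m ∈ Λ.image n, (Λ.filter fun ζ => n ζ = m).card • Real.exp (-1 * (m : ℝ)) :=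
          Finset.sum_comp (fun m : ℕ => Real.exp (-1 * (m : ℝ))) n
      _ ≤ ∑ m ∈ Λ.image n, 7 ^ d * (((m : ℝ) + 1) ^ d * Real.exp (-1 * (m : ℝ))) := by
          refine Finset.sum_le_sum fun m _ => ?_
          rw [nsmul_eq_mul, ← mul_assoc]
          refine mul_le_mul_of_nonneg_right ?_ (Real.exp_pos _).le
          have hc := card_sep_le (Λ.filter fun ζ => n ζ = m) ξ hK0
            (show 0 ≤ ((m : ℝ) + 1) / K by positivity) (fun c hc => by
              have h4 := (Finset.mem_filter.1 hc).2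
              have h5 := Nat.lt_floor_add_one (K * ‖ξ - c‖)
              simp only [hn] at h4
              rw [h4] at h5
              rw [norm_sub_rev, le_div_iff₀ hK0]
              linarith)
            (fun c hc c' hc' => h2 c (Finset.mem_filter.1 hc).1 c' (Finset.mem_filter.1 hc').1)
          refine hc.trans ?_
          rw [← mul_pow, mul_div_cancel₀ _ hK0.ne']
          have : (0 : ℝ) ≤ m := Nat.cast_nonneg m
          gcongr
          linarith
      _ ≤ 7 ^ d * C := by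
          rw [← Finset.mul_sum]
          exact mul_le_mul_of_nonneg_left (hC _) (by positivity)

open Classical in
/-- `K/2`-separated centres: at most `5^(d+1)` in a `K`-ball -/
theorem card_near_le {ι : Type*} (𝒞 : Finset ι) (p : ι → V d × ℝ) {K : ℝ} (hK : 0 < K)
    (hs : ∀ c ∈ 𝒞, ∀ c' ∈ 𝒞, c ≠ c' → K / 2 ≤ dist (p c) (p c')) (y : V d × ℝ) :
    ((𝒞.filter fun c => p c ∈ closedBall y K).card : ℝ) ≤ 5 ^ (d + 1) := by
  set f : ι → V d × ℝ := fun c => (2 / K) • (p c - y) with hf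
  have hsep : ∀ c ∈ 𝒞, ∀ c' ∈ 𝒞, c ≠ c' → 1 ≤ ‖f c - f c'‖ := by
    intro c hc c' hc' hne
    have := hs c hc c' hc' hne
    simp only [hf]
    rw [← smul_sub, norm_smul, Real.norm_of_nonneg (by positivity), sub_sub_sub_cancel_right,
      ← dist_eq_norm, div_mul_eq_mul_div, le_div_iff₀ hK]
    linarith
  have hinj : Set.InjOn f (𝒞.filter fun c => p c ∈ closedBall y K) := by
    intro c hc c' hc' e
    by_contra hne
    have := hsep c (Finset.mem_filter.1 hc).1 c' (Finset.mem_filter.1 hc').1 hne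
    rw [e, sub_self, norm_zero] at this
    linarith
  rw [← Finset.card_image_of_injOn hinj]
  have h := Besicovitch.card_le_of_separated
    ((𝒞.filter fun c => p c ∈ closedBall y K).image f) (by
      intro c hc
      obtain ⟨c, hc', rfl⟩ := Finset.mem_image.1 hc
      have h1 := (Finset.mem_filter.1 hc').2
      rw [mem_closedBall, dist_eq_norm] at h1
      simp only [hf]
      rw [norm_smul, Real.norm_of_nonneg (by positivity), div_mul_eq_mul_div, div_le_iff₀ hK]
      linarith) (by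
      intro c hc c' hc' hne
      obtain ⟨c, hc1, rfl⟩ := Finset.mem_image.1 hc
      obtain ⟨c', hc2, rfl⟩ := Finset.mem_image.1 hc'
      exact hsep c (Finset.mem_filter.1 hc1).1 c' (Finset.mem_filter.1 hc2).1
        (fun e => hne (by rw [e])))
  have hr : Module.finrank ℝ (V d × ℝ) = d + 1 := by
    simp [Module.finrank_prod]
  rw [hr] at h
  exact_mod_cast h

open Classical in
/-- counting heavy separated centres by the mass -/
theorem count_le {ι : Type*} (X 𝒞 : Finset ι) (p : ι → V d × ℝ) (w : ι → ℝ)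
    (hw : ∀ z ∈ X, 0 ≤ w z) {K N : ℝ} (hK : 0 < K)
    (hN : ∀ c ∈ 𝒞, N ≤ ms X p w (closedBall (p c) K))
    (hs : ∀ c ∈ 𝒞, ∀ c' ∈ 𝒞, c ≠ c' → K / 2 ≤ dist (p c) (p c')) (u : V d × ℝ) (r : ℝ) :
    N * ((𝒞.filter fun c => p c ∈ closedBall u r).card : ℝ) ≤
      5 ^ (d + 1) * ms X p w (closedBall u (r + K)) := by
  set T := 𝒞.filter fun c => p c ∈ closedBall u r with hT
  calc N * (T.card : ℝ) = ∑ c ∈ T, N := by rw [Finset.sum_const, nsmul_eq_mul, mul_comm]
    _ ≤ ∑ c ∈ T, ms X p w (closedBall (p c) K) :=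
        Finset.sum_le_sum fun c hc => hN c (Finset.mem_filter.1 hc).1
    _ = ∑ c ∈ T, ∑ z ∈ X, if p z ∈ closedBall (p c) K then w z else 0 := by
        simp only [ms, Finset.sum_filter]
    _ = ∑ z ∈ X, ∑ c ∈ T, if p z ∈ closedBall (p c) K then w z else 0 := Finset.sum_comm
    _ ≤ ∑ z ∈ X, 5 ^ (d + 1) * if p z ∈ closedBall u (r + K) then w z else 0 := by
        refine Finset.sum_le_sum fun z hz => ?_
        rw [← Finset.sum_filter, Finset.sum_const, nsmul_eq_mul]
        by_cases h : p z ∈ closedBall u (r + K)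
        · rw [if_pos h]
          refine mul_le_mul_of_nonneg_right ?_ (hw z hz)
          refine le_trans ?_ (card_near_le 𝒞 p hK hs (p z))
          refine Nat.cast_le.2 (Finset.card_le_card fun c hc => ?_)
          obtain ⟨h1, h2⟩ := Finset.mem_filter.1 hc
          exact Finset.mem_filter.2 ⟨(Finset.mem_filter.1 h1).1, mem_closedBall_comm.1 h2⟩
        · rw [if_neg h]
          have : (T.filter fun c => p z ∈ closedBall (p c) K) = ∅ := by
            refine Finset.filter_eq_empty_iff.2 fun c hc h2 => h ?_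
            have h3 := (Finset.mem_filter.1 hc).2
            rw [mem_closedBall] at h2 h3 ⊢
            linarith [dist_triangle (p z) (p c) u]
          rw [this]; simp
    _ = _ := by simp only [ms, Finset.sum_filter, Finset.mul_sum]

end Crest.Agent.N76.II.L0
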